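import Mathlib

/-! Degree calculus for real functions on Boolean cubes. -/

set_option autoImplicit false
set_option linter.unusedSectionVars false

namespace Crest.Agent.R63

open Finset

/-- the sign of a bit -/
noncomputable def sgn (b : Bool) : ℝ := if b then 1 else -1

lemma sgn_not (b : Bool) : sgn (!b) = - sgn b := by cases b <;> simp [sgn]
lemma sgn_mul_self (b : Bool) : sgn b * sgn b = 1 := by cases b <;> simp [sgn]
lemma abs_sgn (b : Bool) : |sgn b| = 1 := by cases b <;> simp [sgn]

/-- Walsh character -/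
noncomputable def chi {ι : Type} (T : Finset ι) (x : ι → Bool) : ℝ := ∏ i ∈ T, sgn (x i)

/-- `f` depends only on the coordinates in `S` -/
def Junta {ι : Type} (S : Finset ι) (f : (ι → Bool) → ℝ) : Prop :=
  ∀ x y, (∀ i ∈ S, x i = y i) → f x = f y

/-- functions of degree at most `d`: the span of the `d`-juntas -/
def Deg (ι : Type) (d : ℕ) : Submodule ℝ ((ι → Bool) → ℝ) :=
  Submodule.span ℝ {f | ∃ S : Finset ι, S.card ≤ d ∧ Junta S f}

section
variable {ι : Type}

lemma deg_of_junta {d : ℕ} {f : (ι → Bool) → ℝ} (S : Finset ι) (hS : S.card ≤ d)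
    (hf : Junta S f) : f ∈ Deg ι d := Submodule.subset_span ⟨S, hS, hf⟩

lemma deg_mono {d e : ℕ} (h : d ≤ e) {f : (ι → Bool) → ℝ} (hf : f ∈ Deg ι d) : f ∈ Deg ι e := by
  refine Submodule.span_mono ?_ hf
  rintro g ⟨S, hS, hg⟩
  exact ⟨S, hS.trans h, hg⟩

lemma deg_const (d : ℕ) (c : ℝ) : (fun _ => c) ∈ Deg ι d :=
  deg_of_junta ∅ (by simp) fun _ _ _ => rfl

lemma deg_top [Fintype ι] {d : ℕ} (h : Fintype.card ι ≤ d) (f : (ι → Bool) → ℝ) :
    f ∈ Deg ι d :=
  deg_of_junta Finset.univ (by simpa using h) fun x y hxy => by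
    rw [show x = y from funext fun i => hxy i (Finset.mem_univ i)]

lemma deg_add {d : ℕ} {f g : (ι → Bool) → ℝ} (hf : f ∈ Deg ι d) (hg : g ∈ Deg ι d) :
    (fun x => f x + g x) ∈ Deg ι d := Submodule.add_mem _ hf hg

lemma deg_sub {d : ℕ} {f g : (ι → Bool) → ℝ} (hf : f ∈ Deg ι d) (hg : g ∈ Deg ι d) :
    (fun x => f x - g x) ∈ Deg ι d := Submodule.sub_mem _ hf hg

lemma deg_const_mul {d : ℕ} (c : ℝ) {f : (ι → Bool) → ℝ} (hf : f ∈ Deg ι d) :
    (fun x => c * f x) ∈ Deg ι d := Submodule.smul_mem _ c hf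

lemma deg_sum {d : ℕ} {α : Type} (s : Finset α) (f : α → (ι → Bool) → ℝ)
    (hf : ∀ a ∈ s, f a ∈ Deg ι d) : (fun x => ∑ a ∈ s, f a x) ∈ Deg ι d := by
  have := Submodule.sum_mem (Deg ι d) hf
  convert this using 1
  funext x; simp

lemma deg_mul {d e : ℕ} {f g : (ι → Bool) → ℝ} (hf : f ∈ Deg ι d) (hg : g ∈ Deg ι e) :
    (fun x => f x * g x) ∈ Deg ι (d + e) := by
  classical
  induction hf using Submodule.span_induction with
  | mem f hf =>
    obtain ⟨S, hS, hf⟩ := hf
    induction hg using Submodule.span_induction with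
    | mem g hg =>
      obtain ⟨T, hT, hg⟩ := hg
      refine deg_of_junta (S ∪ T) ((Finset.card_union_le _ _).trans (add_le_add hS hT)) ?_
      intro x y hxy
      show f x * g x = f y * g y
      rw [hf x y fun i hi => hxy i (Finset.mem_union_left _ hi),
        hg x y fun i hi => hxy i (Finset.mem_union_right _ hi)]
    | zero => simpa using deg_const (ι := ι) (d + e) 0
    | add g₁ g₂ _ _ h1 h2 => simpa [mul_add] using deg_add h1 h2
    | smul c g _ h1 => simpa [mul_left_comm] using deg_const_mul c h1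
  | zero => simpa using deg_const (ι := ι) (d + e) 0
  | add f₁ f₂ _ _ h1 h2 => simpa [add_mul] using deg_add h1 h2
  | smul c f _ h1 => simpa [mul_assoc] using deg_const_mul c h1

lemma deg_prod {d : ℕ} {α : Type} (s : Finset α) (f : α → (ι → Bool) → ℝ)
    (hf : ∀ a ∈ s, f a ∈ Deg ι d) : (fun x => ∏ a ∈ s, f a x) ∈ Deg ι (s.card * d) := by
  classical
  induction s using Finset.induction_on with
  | empty => simpa using deg_const (ι := ι) 0 1
  | insert a s ha ih =>
    simp only [Finset.prod_insert ha, Finset.card_insert_of_notMem ha]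
    have := deg_mul (hf a (Finset.mem_insert_self _ _))
      (ih fun b hb => hf b (Finset.mem_insert_of_mem hb))
    exact deg_mono (le_of_eq (by ring)) this

/-- reindexing and coordinatewise maps do not raise the degree -/
lemma deg_comp {κ : Type} {d : ℕ} (e : ι → κ) (φ : ι → Bool → Bool) {f : (ι → Bool) → ℝ}
    (hf : f ∈ Deg ι d) : (fun x : κ → Bool => f fun i => φ i (x (e i))) ∈ Deg κ d := by
  classical
  induction hf using Submodule.span_induction with
  | mem f hf =>
    obtain ⟨S, hS, hf⟩ := hf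
    refine deg_of_junta (S.image e) (Finset.card_image_le.trans hS) fun x y hxy => ?_
    exact hf _ _ fun i hi => by rw [hxy (e i) (Finset.mem_image_of_mem _ hi)]
  | zero => simpa using deg_const (ι := κ) d 0
  | add f₁ f₂ _ _ h1 h2 => simpa using deg_add h1 h2
  | smul c f _ h1 => simpa using deg_const_mul c h1

lemma junta_chi (T : Finset ι) : Junta T (chi T) := fun x y h =>
  Finset.prod_congr rfl fun i hi => by rw [h i hi]

variable [Fintype ι] [DecidableEq ι]

lemma fourier_vanish {d : ℕ} {f : (ι → Bool) → ℝ} (hf : f ∈ Deg ι d) (T : Finset ι)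
    (hT : d < T.card) : ∑ x, f x * chi T x = 0 := by
  induction hf using Submodule.span_induction with
  | mem f hf =>
    obtain ⟨S, hS, hf⟩ := hf
    obtain ⟨i, hiT, hiS⟩ : ∃ i, i ∈ T ∧ i ∉ S := by
      by_contra hc
      push Not at hc
      have := Finset.card_le_card (show T ⊆ S from hc)
      omega
    let τ : (ι → Bool) → (ι → Bool) := fun x => Function.update x i (!x i)
    have hτ : Function.Involutive τ := by
      intro x; funext j
      by_cases hj : j = i
      · subst hj; simp [τ]
      · simp [τ, hj]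
    have h1 : ∀ x, f (τ x) * chi T (τ x) = - (f x * chi T x) := by
      intro x
      have h2 : f (τ x) = f x := hf _ _ fun j hj => by
        have : j ≠ i := fun h => hiS (h ▸ hj)
        simp [τ, this]
      have h3 : chi T (τ x) = - chi T x := by
        unfold chi
        rw [← Finset.mul_prod_erase T _ hiT, ← Finset.mul_prod_erase T _ hiT]
        have : ∏ j ∈ T.erase i, sgn (τ x j) = ∏ j ∈ T.erase i, sgn (x j) :=
          Finset.prod_congr rfl fun j hj => by simp [τ, Finset.ne_of_mem_erase hj]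
        rw [this]
        simp [τ, sgn_not]
      rw [h2, h3]; ring
    have h4 := Equiv.sum_comp hτ.toPerm (fun x => f x * chi T x)
    simp only [Function.Involutive.coe_toPerm, h1, Finset.sum_neg_distrib] at h4
    linarith
  | zero => simp
  | add f₁ f₂ _ _ h1 h2 => simp [add_mul, Finset.sum_add_distrib, h1, h2]
  | smul c f _ h1 => simp [mul_assoc, ← Finset.mul_sum, h1]

lemma sum_chi_mul_chi (x y : ι → Bool) :
    ∑ T : Finset ι, chi T y * chi T x = if y = x then 2 ^ Fintype.card ι else 0 := by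
  have h1 : ∑ T : Finset ι, chi T y * chi T x = ∏ i, (1 + sgn (y i) * sgn (x i)) := by
    rw [Finset.prod_one_add, Finset.powerset_univ]
    refine Finset.sum_congr rfl fun T _ => ?_
    rw [chi, chi, Finset.prod_mul_distrib]
  rw [h1]
  split_ifs with h
  · subst h
    simp [sgn_mul_self, one_add_one_eq_two]
  · obtain ⟨i, hi⟩ := Function.ne_iff.mp h
    refine Finset.prod_eq_zero (Finset.mem_univ i) ?_
    revert hi
    cases y i <;> cases x i <;> simp [sgn]

lemma deg_of_fourier {d : ℕ} {f : (ι → Bool) → ℝ}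
    (hf : ∀ T : Finset ι, d < T.card → ∑ x, f x * chi T x = 0) : f ∈ Deg ι d := by
  have h1 : f = fun x => ∑ T : Finset ι,
      ((∑ y, f y * chi T y) / 2 ^ Fintype.card ι) * chi T x := by
    funext x
    simp_rw [div_mul_eq_mul_div, Finset.sum_mul, ← Finset.sum_div, mul_assoc]
    rw [Finset.sum_comm]
    simp_rw [← Finset.mul_sum, sum_chi_mul_chi]
    simp
  rw [h1]
  refine deg_sum _ _ fun T _ => ?_
  by_cases hT : d < T.card
  · rw [hf T hT]; simpa using deg_const (ι := ι) d 0
  · exact deg_const_mul _ (deg_of_junta T (not_lt.mp hT) (junta_chi T))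

/-- every function of `X` has degree at most `d` -/
def Cost {ι V : Type} (X : (ι → Bool) → V) (d : ℕ) : Prop :=
  ∀ ψ : V → ℝ, (fun x => ψ (X x)) ∈ Deg ι d

omit [Fintype ι] [DecidableEq ι] in
lemma Cost.mono {V : Type} {X : (ι → Bool) → V} {d e : ℕ} (h : Cost X d) (hde : d ≤ e) :
    Cost X e := fun ψ => deg_mono hde (h ψ)

omit [Fintype ι] [DecidableEq ι] in
lemma Cost.map {V W : Type} {X : (ι → Bool) → V} {d : ℕ} (h : Cost X d) (g : V → W) :
    Cost (fun x => g (X x)) d := fun ψ => h fun v => ψ (g v)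

omit [Fintype ι] [DecidableEq ι] in
lemma Cost.comp {V κ : Type} {X : (ι → Bool) → V} {d : ℕ} (h : Cost X d) (e : ι → κ)
    (φ : ι → Bool → Bool) : Cost (fun x : κ → Bool => X fun i => φ i (x (e i))) d :=
  fun ψ => deg_comp e φ (h ψ)

lemma Cost.pi {V I : Type} [Fintype I] {X : I → (ι → Bool) → V} {d : ℕ}
    (h : ∀ i, Cost (X i) d) : Cost (fun x => fun i => X i x) (Fintype.card I * d) := by
  classical
  intro ψ
  have h1 : (fun x => ψ fun i => X i x) = fun x =>
      ∑ τ ∈ Finset.univ.image (fun x => fun i => X i x),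
        ψ τ * ∏ i, (if X i x = τ i then (1 : ℝ) else 0) := by
    funext x
    simp_rw [Finset.prod_boole]
    rw [Finset.sum_eq_single (fun i => X i x)]
    · simp
    · intro τ _ hτ
      rw [if_neg, mul_zero]
      intro hc
      exact hτ (funext fun i => (hc i (Finset.mem_univ i)).symm)
    · intro hc
      exact absurd (Finset.mem_image_of_mem _ (Finset.mem_univ x)) hc
  rw [h1]
  refine deg_sum _ _ fun τ _ => deg_const_mul _ ?_
  exact deg_prod Finset.univ (fun i x => if X i x = τ i then (1 : ℝ) else 0)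
    fun i _ => h i fun v => if v = τ i then 1 else 0

lemma Cost.pair {V W : Type} {X : (ι → Bool) → V} {Y : (ι → Bool) → W} {d e : ℕ}
    (hX : Cost X d) (hY : Cost Y e) : Cost (fun x => (X x, Y x)) (d + e) := by
  classical
  intro ψ
  have h1 : (fun x => ψ (X x, Y x)) = fun x =>
      ∑ τ ∈ Finset.univ.image X, (if X x = τ then (1 : ℝ) else 0) * ψ (τ, Y x) := by
    funext x
    simp
  rw [h1]
  exact deg_sum _ _ fun τ _ => deg_mul (hX fun v => if v = τ then 1 else 0) (hY fun w => ψ (τ, w))

/-- composition: degrees multiply -/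
lemma deg_comp_cost {I : Type} {d e : ℕ} {f : (I → Bool) → ℝ} (hf : f ∈ Deg I d)
    {g : I → (ι → Bool) → Bool} (hg : ∀ i, Cost (g i) e) :
    (fun x => f fun i => g i x) ∈ Deg ι (d * e) := by
  classical
  induction hf using Submodule.span_induction with
  | mem f hf =>
    obtain ⟨S, hS, hf⟩ := hf
    have h1 := Cost.pi (I := S) (X := fun i => g i.1) (fun i => hg i.1)
      (fun τ => f fun i => if h : i ∈ S then τ ⟨i, h⟩ else false)
    rw [Fintype.card_coe] at h1
    refine deg_mono (Nat.mul_le_mul_right e hS) ?_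
    convert h1 using 2 with x
    exact hf _ _ fun i hi => by simp [hi]
  | zero => simpa using deg_const (ι := ι) (d * e) 0
  | add f₁ f₂ _ _ h1 h2 => simpa using deg_add h1 h2
  | smul c f _ h1 => simpa using deg_const_mul c h1

omit [Fintype ι] [DecidableEq ι] in
lemma cost_bool {g : (ι → Bool) → Bool} {d : ℕ} (h : (fun x => sgn (g x)) ∈ Deg ι d) :
    Cost g d := by
  intro ψ
  have : (fun x => ψ (g x)) = fun x => (ψ true + ψ false) / 2 + (ψ true - ψ false) / 2 * sgn (g x) := by
    funext x
    cases g x <;> simp [sgn] <;> ring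
  rw [this]
  exact deg_add (deg_const _ _) (deg_const_mul _ h)

end

end Crest.Agent.R63
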