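import Crest.Agent.R63.Prob

/-! A randomized estimator whose output distribution has low degree. -/

set_option autoImplicit false
set_option linter.unusedSectionVars false

namespace Crest.Agent.R63

open Finset
open scoped BigOperators

/-- the cubic Chebyshev map -/
def phi (x : ℝ) : ℝ := 3 * x - 4 * x ^ 3

lemma phi_abs_le_one {x : ℝ} (h : |x| ≤ 1) : |phi x| ≤ 1 := by
  rw [abs_le] at h ⊢
  unfold phi
  constructor
  · nlinarith [mul_nonneg (sub_nonneg.mpr h.2) (sq_nonneg (2 * x + 1))]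
  · nlinarith [mul_nonneg (show 0 ≤ x + 1 by linarith) (sq_nonneg (2 * x - 1))]

lemma phi_abs_le {x : ℝ} (h : |x| ≤ 1) : |phi x| ≤ 3 * |x| := by
  have : phi x = x * (3 - 4 * x ^ 2) := by unfold phi; ring
  rw [this, abs_mul, mul_comm]
  refine mul_le_mul_of_nonneg_right ?_ (abs_nonneg x)
  have h2 : x ^ 2 ≤ 1 := by rw [← sq_abs]; nlinarith [abs_nonneg x]
  rw [abs_le]
  constructor <;> nlinarith [sq_nonneg x]

lemma iter_phi {x : ℝ} (h : |x| ≤ 1) (J : ℕ) :
    |phi^[J] x| ≤ 1 ∧ |phi^[J] x| ≤ 3 ^ J * |x| ∧ |phi^[J] x - 3 ^ J * x| ≤ (3 ^ J * x) ^ 2 := by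
  induction J with
  | zero => simp [h, sq_nonneg]
  | succ J ih =>
    obtain ⟨h1, h2, h3⟩ := ih
    rw [Function.iterate_succ_apply']
    set a := phi^[J] x
    refine ⟨phi_abs_le_one h1, (phi_abs_le h1).trans (by rw [pow_succ]; linarith), ?_⟩
    have e : phi a - 3 ^ (J + 1) * x = 3 * (a - 3 ^ J * x) - 4 * a ^ 3 := by
      unfold phi; ring
    have h4 : |a ^ 3| ≤ (3 ^ J * x) ^ 2 := by
      rw [abs_pow]
      have h5 : |a| ^ 2 ≤ (3 ^ J * |x|) ^ 2 := pow_le_pow_left₀ (abs_nonneg _) h2 2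
      rw [mul_pow, sq_abs x, ← mul_pow] at h5
      nlinarith [abs_nonneg a, sq_nonneg |a|]
    rw [e]
    refine (abs_sub _ _).trans ?_
    rw [abs_mul, abs_mul, pow_succ (3 : ℝ) J]
    have : |(3 : ℝ)| = 3 := by norm_num
    have h6 : |(4 : ℝ)| = 4 := by norm_num
    rw [this, h6]
    nlinarith [sq_nonneg (3 ^ J * x)]

/-- integer numerators of the iterated cubic map -/
def num (H T : ℤ) : ℕ → ℤ
  | 0 => T
  | J + 1 => 3 * num H T J * (H ^ (3 ^ J)) ^ 2 - 4 * (num H T J) ^ 3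

lemma num_div {H : ℤ} (hH : H ≠ 0) (T : ℤ) (J : ℕ) :
    (num H T J : ℝ) / (H : ℝ) ^ (3 ^ J) = phi^[J] (T / H) := by
  have hH' : (H : ℝ) ≠ 0 := by exact_mod_cast hH
  induction J with
  | zero => simp [num]
  | succ J ih =>
    rw [Function.iterate_succ_apply', ← ih, num, phi, pow_succ 3 J, pow_mul]
    push_cast
    field_simp

lemma num_deg {κ : Type} {D : ℕ} (H : ℤ) {T : (κ → Bool) → ℤ}
    (hT : (fun u => (T u : ℝ)) ∈ Deg κ D) (J : ℕ) :
    (fun u => (num H (T u) J : ℝ)) ∈ Deg κ (3 ^ J * D) := by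
  induction J with
  | zero => simpa [num] using hT
  | succ J ih =>
    have h1 := deg_const_mul (3 * ((H : ℝ) ^ (3 ^ J)) ^ 2) ih
    have h2 := deg_const_mul 4 (deg_mul (deg_mul ih ih) ih)
    have h3 := deg_sub (deg_mono (e := 3 ^ (J + 1) * D)
      (Nat.mul_le_mul_right D (Nat.pow_le_pow_right (by norm_num) (Nat.le_succ J))) h1)
      (deg_mono (le_of_eq (by ring)) h2)
    convert h3 using 2 with u
    simp only [num]
    push_cast
    ring

lemma abs_num_le {H : ℕ} (hH : 0 < H) {T : ℤ} (hT : |T| ≤ H) (J : ℕ) :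
    |num H T J| ≤ (H : ℤ) ^ (3 ^ J) := by
  have hH' : (0 : ℝ) < H := by exact_mod_cast hH
  have h1 : |(T : ℝ) / H| ≤ 1 := by
    rw [abs_div, abs_of_pos hH', div_le_one hH']
    exact_mod_cast hT
  have h2 := (iter_phi h1 J).1
  have h3 := num_div (H := H) (by exact_mod_cast hH.ne') T J
  push_cast at h3
  rw [← h3, abs_div, abs_of_pos (pow_pos hH' _), div_le_one (pow_pos hH' _)] at h2
  exact_mod_cast h2

/-- one random bit with mean the iterated cubic of `T / H` -/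
def bit (H J : ℕ) (T : ℤ) (a : Fin (2 * H ^ 3 ^ J)) : Bool :=
  decide ((a : ℤ) < (H : ℤ) ^ 3 ^ J + num H T J)

lemma sum_bit_true {H : ℕ} (hH : 0 < H) {T : ℤ} (hT : |T| ≤ H) (J : ℕ) :
    ∑ a : Fin (2 * H ^ 3 ^ J), (if bit H J T a = true then (1 : ℝ) else 0) =
      (H : ℝ) ^ 3 ^ J + num H T J := by
  have h := abs_le.mp (abs_num_le hH hT J)
  obtain ⟨c, hc⟩ : ∃ c : ℕ, (c : ℤ) = (H : ℤ) ^ 3 ^ J + num H T J :=
    ⟨_, Int.toNat_of_nonneg (by linarith)⟩
  have hc2 : c ≤ 2 * H ^ 3 ^ J := by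
    have : (c : ℤ) ≤ 2 * (H : ℤ) ^ 3 ^ J := by linarith
    exact_mod_cast this
  have h1 : ∀ a : Fin (2 * H ^ 3 ^ J), (bit H J T a = true) ↔ (a : ℕ) < c := by
    intro a
    simp only [bit, decide_eq_true_eq, ← hc]
    exact Nat.cast_lt
  simp_rw [h1]
  rw [Finset.sum_boole, Fin.card_filter_val_lt, min_eq_right hc2]
  have : ((c : ℤ) : ℝ) = (((H : ℤ) ^ 3 ^ J + num H T J : ℤ) : ℝ) := by rw [hc]
  push_cast at this
  exact this

lemma sum_bit_false {H : ℕ} (hH : 0 < H) {T : ℤ} (hT : |T| ≤ H) (J : ℕ) :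
    ∑ a : Fin (2 * H ^ 3 ^ J), (if bit H J T a = false then (1 : ℝ) else 0) =
      (H : ℝ) ^ 3 ^ J - num H T J := by
  have h1 := sum_bit_true hH hT J
  have h2 : ∑ a : Fin (2 * H ^ 3 ^ J), ((if bit H J T a = true then (1 : ℝ) else 0) +
      (if bit H J T a = false then (1 : ℝ) else 0)) = 2 * (H : ℝ) ^ 3 ^ J := by
    have : ∀ a : Fin (2 * H ^ 3 ^ J), ((if bit H J T a = true then (1 : ℝ) else 0) +
      (if bit H J T a = false then (1 : ℝ) else 0)) = 1 := by
      intro a; cases bit H J T a <;> simp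
    simp_rw [this]
    simp
  rw [Finset.sum_add_distrib] at h2
  linarith

/-- integer sign -/
def isgn (b : Bool) : ℤ := if b then 1 else -1

lemma cast_isgn (b : Bool) : (isgn b : ℝ) = sgn b := by cases b <;> simp [isgn, sgn]

/-- the estimator -/
def est (H J R : ℕ) (lam : ℕ) (T : ℤ) (a : Fin R → Fin (2 * H ^ 3 ^ J)) : ℤ :=
  lam * ∑ l, isgn (bit H J T (a l))

lemma est_deg {κ : Type} {D H : ℕ} (hH : 0 < H) (J R lam : ℕ) {T : (κ → Bool) → ℤ}
    (hTH : ∀ u, |T u| ≤ H) (hT : (fun u => (T u : ℝ)) ∈ Deg κ D) (ψ : ℤ → ℝ) :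
    (fun u => ∑ a : Fin R → Fin (2 * H ^ 3 ^ J), ψ (est H J R lam (T u) a)) ∈
      Deg κ (R * (3 ^ J * D)) := by
  have h1 : (fun u => ∑ a : Fin R → Fin (2 * H ^ 3 ^ J), ψ (est H J R lam (T u) a)) =
      fun u => ∑ b : Fin R → Bool, ψ (lam * ∑ l, isgn (b l)) *
        ∏ l, ((H : ℝ) ^ 3 ^ J + sgn (b l) * num H (T u) J) := by
    funext u
    have := sum_push (I := Fin R) (fun _ a => bit H J (T u) a) (fun _ _ => (1 : ℝ))
      (fun b => ψ (lam * ∑ l, isgn (b l)))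
    simp only [Finset.prod_const_one, mul_one] at this
    simp only [est]
    rw [this]
    refine Finset.sum_congr rfl fun b _ => ?_
    congr 1
    refine Finset.prod_congr rfl fun l _ => ?_
    cases b l
    · rw [sum_bit_false hH (hTH u)]; simp [sgn]; ring
    · rw [sum_bit_true hH (hTH u)]; simp [sgn]
  rw [h1]
  refine deg_sum _ _ fun b _ => deg_const_mul _ ?_
  have := deg_prod (Finset.univ : Finset (Fin R))
    (fun l u => (H : ℝ) ^ 3 ^ J + sgn (b l) * num H (T u) J)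
    (fun l _ => deg_add (deg_const _ _) (deg_const_mul _ (num_deg H hT J)))
  simpa using this

lemma est_mse {H : ℕ} (hH : 0 < H) (J R lam : ℕ) (hlam : lam * R * 3 ^ J = H) {T : ℤ}
    (hT : |T| ≤ H) :
    𝔼 a : Fin R → Fin (2 * H ^ 3 ^ J), ((est H J R lam T a : ℝ) - T) ^ 2 ≤
      8 * lam ^ 2 * R + 2 * (3 ^ J / H) ^ 2 * (T : ℝ) ^ 4 := by
  have hH' : (0 : ℝ) < H := by exact_mod_cast hH
  have : Nonempty (Fin (2 * H ^ 3 ^ J)) := ⟨⟨0, by positivity⟩⟩
  have h1 : |(T : ℝ) / H| ≤ 1 := by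
    rw [abs_div, abs_of_pos hH', div_le_one hH']
    exact_mod_cast hT
  obtain ⟨hy1, -, hy3⟩ := iter_phi h1 J
  have hnd := num_div (H := H) (by exact_mod_cast hH.ne') T J
  push_cast at hnd
  set y := phi^[J] ((T : ℝ) / H) with hy
  have hmean : 𝔼 a : Fin (2 * H ^ 3 ^ J), (sgn (bit H J T a) - y) = 0 := by
    rw [Finset.expect_sub_distrib, Fintype.expect_const, Fintype.expect_eq_sum_div_card]
    have : ∀ a : Fin (2 * H ^ 3 ^ J), sgn (bit H J T a) =
        (if bit H J T a = true then (1 : ℝ) else 0) -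
          (if bit H J T a = false then (1 : ℝ) else 0) := by
      intro a; cases bit H J T a <;> simp [sgn]
    simp_rw [this]
    rw [Finset.sum_sub_distrib, sum_bit_true hH hT, sum_bit_false hH hT, ← hnd]
    simp only [Fintype.card_fin]
    push_cast
    field_simp
    ring
  have hvar := moment2 hmean R
  have hv2 : 𝔼 a : Fin (2 * H ^ 3 ^ J), (sgn (bit H J T a) - y) ^ 2 ≤ 4 :=
    Finset.expect_le Finset.univ_nonempty fun a _ => by
      have h2 := abs_le.mp hy1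
      have h3 := abs_le.mp (le_of_eq (abs_sgn (bit H J T a)))
      nlinarith
  have hlam' : (lam : ℝ) * R * 3 ^ J = H := by exact_mod_cast hlam
  have hbias : (lam * R * y - T) ^ 2 ≤ (3 ^ J / H) ^ 2 * (T : ℝ) ^ 4 := by
    have e1 : (lam : ℝ) * R = H / 3 ^ J := by rw [← hlam']; field_simp
    have e2 : lam * R * y - T = (H / 3 ^ J) * (y - 3 ^ J * (T / H)) := by
      rw [e1]; field_simp
    have h4 : (y - 3 ^ J * (T / H)) ^ 2 ≤ ((3 ^ J * ((T : ℝ) / H)) ^ 2) ^ 2 := by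
      rw [← sq_abs]
      exact pow_le_pow_left₀ (abs_nonneg _) hy3 2
    rw [e2, mul_pow]
    refine (mul_le_mul_of_nonneg_left h4 (by positivity)).trans (le_of_eq ?_)
    field_simp
  have hpt : ∀ a : Fin R → Fin (2 * H ^ 3 ^ J), ((est H J R lam T a : ℝ) - T) ^ 2 ≤
      2 * lam ^ 2 * (∑ l, (sgn (bit H J T (a l)) - y)) ^ 2 + 2 * (lam * R * y - T) ^ 2 := by
    intro a
    have e : (est H J R lam T a : ℝ) - T =
        lam * (∑ l, (sgn (bit H J T (a l)) - y)) + (lam * R * y - T) := by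
      simp only [est, Finset.sum_sub_distrib]
      push_cast
      simp only [cast_isgn, Finset.sum_const, Finset.card_univ, Fintype.card_fin, nsmul_eq_mul]
      ring
    rw [e]
    nlinarith [sq_nonneg (lam * (∑ l, (sgn (bit H J T (a l)) - y)) - (lam * R * y - T))]
  refine (Finset.expect_le_expect fun a _ => hpt a).trans ?_
  rw [Finset.expect_add_distrib, Fintype.expect_const, ← Finset.mul_expect, hvar]
  have h5 : (0 : ℝ) ≤ 2 * lam ^ 2 * R := by positivity
  nlinarith [mul_le_mul_of_nonneg_left hv2 h5]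

end Crest.Agent.R63
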