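import Crest.Agent.R63.Step2

/-! From cheap estimators to Boolean functions, and amplification by composition. -/

set_option autoImplicit false
set_option linter.unusedSectionVars false

namespace Crest.Agent.R63

open Finset Filter
open scoped BigOperators

lemma centralBinom_lower (k : ℕ) (hk : 10 ≤ k) :
    (0.31 : ℝ) * 16 ^ k ≤ k * (Nat.centralBinom k : ℝ) ^ 2 := by
  induction k, hk using Nat.le_induction with
  | base =>
    have : Nat.centralBinom 10 = 184756 := by decide +kernel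
    rw [this]; norm_num
  | succ k hk ih =>
    have h1 : ((k : ℝ) + 1) * (Nat.centralBinom (k + 1) : ℝ) =
        2 * (2 * k + 1) * Nat.centralBinom k := by
      exact_mod_cast Nat.succ_mul_centralBinom_succ k
    have hk0 : (0 : ℝ) < k + 1 := by positivity
    refine le_of_mul_le_mul_left ?_ hk0
    push_cast
    have h2 : ((k : ℝ) + 1) * ((k + 1) * (Nat.centralBinom (k + 1) : ℝ) ^ 2) =
        (2 * (2 * k + 1) * Nat.centralBinom k) ^ 2 := by rw [← h1]; ring
    rw [h2, pow_succ]
    have h3 := mul_le_mul_of_nonneg_left ih (show (0 : ℝ) ≤ 16 * (k + 1) by positivity)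
    nlinarith [sq_nonneg (Nat.centralBinom k : ℝ)]

lemma sum_choose_half (n k : ℕ) (hk : k ≤ n) :
    ∑ j ∈ range (k + 1), (n.choose j : ℝ) * (n - 2 * j) = (n.choose k : ℝ) * (n - k) := by
  induction k with
  | zero => simp
  | succ k ih =>
    rw [Finset.sum_range_succ, ih (by omega)]
    have h1 : (n.choose (k + 1) : ℝ) * (k + 1) = n.choose k * (n - k) := by
      have := Nat.choose_succ_right_eq n k
      rw [← Nat.cast_sub (by omega : k ≤ n)]
      exact_mod_cast this
    push_cast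
    linarith

lemma sum_choose_abs (k : ℕ) :
    2 * k * (Nat.centralBinom k : ℝ) ≤
      ∑ j ∈ range (2 * k + 1), ((2 * k).choose j : ℝ) * |2 * (j : ℝ) - (2 * k : ℕ)| := by
  have h1 := sum_choose_half (2 * k) k (by omega)
  have h2 := sum_choose_half (2 * k) (2 * k) le_rfl
  rw [sub_self, mul_zero] at h2
  have h3 : ∑ j ∈ range (k + 1), ((2 * k).choose j : ℝ) * ((2 * k : ℕ) - 2 * j) =
      ∑ j ∈ range (2 * k + 1),
        if j < k + 1 then ((2 * k).choose j : ℝ) * ((2 * k : ℕ) - 2 * j) else 0 := by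
    rw [← Finset.sum_filter]
    refine Finset.sum_congr ?_ fun _ _ => rfl
    ext j; simp only [Finset.mem_range, Finset.mem_filter]; omega
  have h4 : 2 * k * (Nat.centralBinom k : ℝ) = ∑ j ∈ range (2 * k + 1),
      (2 * (if j < k + 1 then ((2 * k).choose j : ℝ) * ((2 * k : ℕ) - 2 * j) else 0) -
        ((2 * k).choose j : ℝ) * ((2 * k : ℕ) - 2 * j)) := by
    rw [Finset.sum_sub_distrib, ← Finset.mul_sum, ← h3, h1, h2, Nat.centralBinom]
    push_cast; ring
  rw [h4]
  refine Finset.sum_le_sum fun j _ => ?_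
  have h5 : (0 : ℝ) ≤ (2 * k).choose j := by positivity
  split_ifs
  · nlinarith [mul_le_mul_of_nonneg_left (neg_le_abs (2 * (j : ℝ) - (2 * k : ℕ))) h5]
  · nlinarith [mul_le_mul_of_nonneg_left (le_abs_self (2 * (j : ℝ) - (2 * k : ℕ))) h5]

lemma expect_abs_S {ι : Type} [Fintype ι] [DecidableEq ι] (he : Even (Fintype.card ι))
    (hn : 20 ≤ Fintype.card ι) :
    0.787 * Real.sqrt (Fintype.card ι) ≤ 𝔼 x : ι → Bool, |S x| := by
  obtain ⟨k, hk⟩ := he
  rw [← two_mul] at hk
  let e : (ι → Bool) ≃ Finset ι :=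
    { toFun := fun x => Finset.univ.filter fun i => x i = true
      invFun := fun T i => decide (i ∈ T)
      left_inv := fun x => by funext i; simp
      right_inv := fun T => by ext i; simp }
  have h1 : ∑ x : ι → Bool, |S x| = ∑ T : Finset ι, |2 * (T.card : ℝ) - (2 * k : ℕ)| := by
    refine Fintype.sum_equiv e _ _ fun x => ?_
    congr 1
    have : ∀ i, sgn (x i) = 2 * (if x i = true then (1 : ℝ) else 0) - 1 := by
      intro i; cases x i <;> simp [sgn]; norm_num
    simp only [S, this, Finset.sum_sub_distrib, ← Finset.mul_sum, Finset.sum_boole]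
    simp [e, hk]
  rw [← Finset.powerset_univ,
    Finset.sum_powerset_apply_card (fun j => |2 * (j : ℝ) - (2 * k : ℕ)|), Finset.card_univ, hk] at h1
  simp only [nsmul_eq_mul] at h1
  have h2 := sum_choose_abs k
  rw [← h1] at h2
  rw [Fintype.expect_eq_sum_div_card, Fintype.card_fun, Fintype.card_bool, hk]
  rw [le_div_iff₀ (by positivity)]
  refine le_trans ?_ h2
  have h3 := centralBinom_lower k (by omega)
  refine le_of_sq_le_sq ?_ (by positivity)
  push_cast
  have h4 : (0 : ℝ) ≤ k := by positivity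
  have h5 : ((2 : ℝ) ^ (2 * k)) ^ 2 = 16 ^ k := by
    rw [← pow_mul, show 2 * k * 2 = 4 * k by ring, pow_mul]; norm_num
  rw [mul_pow, mul_pow, Real.sq_sqrt (by positivity), h5]
  have h6 : (0 : ℝ) ≤ k * 16 ^ k := by positivity
  nlinarith [mul_le_mul_of_nonneg_left h3 h4]

/-- a balanced Boolean function with cost `d` and linear sum at least `ℓ` -/
def Bal (d : ℕ) (ℓ : ℝ) : Prop :=
  ∃ (ι : Type) (_ : Fintype ι) (_ : DecidableEq ι) (f : (ι → Bool) → Bool),
    Cost f d ∧ 𝔼 x, sgn (f x) = 0 ∧ ℓ ≤ 𝔼 x, sgn (f x) * S x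

lemma bal_of_nonneg {ι : Type} [Fintype ι] [DecidableEq ι] (g : (ι → Bool) → Bool) {d : ℕ}
    {ℓ : ℝ} (hg : Cost g d) (h0 : 0 ≤ 𝔼 x, sgn (g x)) (hl : ℓ ≤ 𝔼 x, sgn (g x) * S x) :
    Bal (1 + d) ℓ := by
  let F : (Unit → Bool) → (ι → Bool) → Bool := fun y x => if y () then g x else !g fun i => !x i
  have hE : ∀ G : (Unit → Bool) → ℝ, 𝔼 y, G y = (G (fun _ => true) + G (fun _ => false)) / 2 := by
    intro G
    rw [Fintype.expect_equiv (Equiv.funUnique Unit Bool) G (fun b => G fun _ => b)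
      (fun y => rfl), Fintype.expect_eq_sum_div_card]
    simp
  refine ⟨Unit ⊕ ι, inferInstance, inferInstance,
    fun x => F (fun i => x (Sum.inl i)) (fun i => x (Sum.inr i)), cost_bool ?_, ?_, ?_⟩
  · have h1 : (fun x : Unit ⊕ ι → Bool => sgn (F (fun i => x (Sum.inl i)) (fun i => x (Sum.inr i))))
        = fun x => (if x (Sum.inl ()) then 1 else 0) * sgn (g fun i => x (Sum.inr i)) +
          (if x (Sum.inl ()) then 0 else -1) * sgn (g fun i => !x (Sum.inr i)) := by
      funext x
      simp only [F]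
      cases x (Sum.inl ()) <;> simp [sgn_not]
    rw [h1]
    refine deg_add (deg_mul (deg_of_junta {Sum.inl ()} (by simp) ?_)
      (hg.comp Sum.inr (fun _ b => b) sgn)) (deg_mul (deg_of_junta {Sum.inl ()} (by simp) ?_)
      (hg.comp Sum.inr (fun _ b => !b) sgn))
    · intro x y h; simp only [h _ (Finset.mem_singleton_self _)]
    · intro x y h; simp only [h _ (Finset.mem_singleton_self _)]
  · rw [expect_sum_type (fun y x => sgn (F y x)), hE]
    simp only [F, if_true, Bool.false_eq_true, if_false, sgn_not, Finset.expect_neg_distrib,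
      expect_not (fun x => sgn (g x))]
    ring
  · simp_rw [S_sum_type]
    rw [expect_sum_type (fun y x => sgn (F y x) * (S y + S x)), hE]
    have h1 : S (fun _ : Unit => true) = 1 := by simp [S, sgn]
    have h2 : S (fun _ : Unit => false) = -1 := by simp [S, sgn]
    have h3 : 𝔼 x : ι → Bool, (-sgn (g fun i => !x i)) * (-1 + S x) =
        𝔼 x : ι → Bool, sgn (g x) * (1 + S x) := by
      rw [← expect_not (fun x => sgn (g x) * (1 + S x))]
      refine Finset.expect_congr rfl fun x _ => ?_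
      rw [S_not]; ring
    simp only [F, if_true, Bool.false_eq_true, if_false, sgn_not, h1, h2, h3]
    simp_rw [mul_add, Finset.expect_add_distrib, mul_one]
    linarith

lemma bal_of {ι : Type} [Fintype ι] [DecidableEq ι] (g : (ι → Bool) → Bool) {d : ℕ}
    {ℓ : ℝ} (hg : Cost g d) (hl : ℓ ≤ 𝔼 x, sgn (g x) * S x) : Bal (1 + d) ℓ := by
  by_cases h0 : 0 ≤ 𝔼 x, sgn (g x)
  · exact bal_of_nonneg g hg h0 hl
  · refine bal_of_nonneg (fun x => !g fun i => !x i)
      ((hg.comp id (fun _ b => !b)).map (fun b => !b)) ?_ ?_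
    · simp only [sgn_not, Finset.expect_neg_distrib, expect_not (fun x => sgn (g x))]
      linarith
    · rw [← expect_not (fun x => sgn (g x) * S x)] at hl
      refine hl.trans (le_of_eq (Finset.expect_congr rfl fun x _ => ?_))
      rw [S_not, sgn_not]; ring

lemma exists_bal : ∃ (d : ℕ) (ℓ : ℝ), 0 < ℓ ∧ 1 ≤ d ∧ (d : ℝ) < ℓ ^ 2 ∧ Bal d ℓ := by
  obtain ⟨ι, _, _, X, D, hn, hev, hD, hκ, hX, -, hmse⟩ :=
    good_final (0.001 ^ 2) (by norm_num) 1000
  have hn' : (1000 : ℝ) ≤ Fintype.card ι := by exact_mod_cast hn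
  have hsq : 0 < Real.sqrt (Fintype.card ι) := Real.sqrt_pos.mpr (by linarith)
  refine ⟨1 + D, 0.785 * Real.sqrt (Fintype.card ι), by positivity, by omega, ?_,
    bal_of (fun x => decide (0 ≤ X x)) (hX.map fun v => decide (0 ≤ v)) ?_⟩
  · rw [mul_pow, Real.sq_sqrt (by positivity)]
    push_cast
    linarith
  · have h1 := expect_abs_S hev (by omega)
    have h2 := expect_abs_le_sqrt (fun x => (X x : ℝ) - S x)
    have h3 : Real.sqrt (𝔼 x, ((X x : ℝ) - S x) ^ 2) ≤ 0.001 * Real.sqrt (Fintype.card ι) := by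
      refine (Real.sqrt_le_sqrt hmse).trans (le_of_eq ?_)
      rw [Real.sqrt_mul (by positivity), Real.sqrt_sq (by norm_num)]
    have h4 : ∀ x, |S x| - 2 * |(X x : ℝ) - S x| ≤ sgn (decide (0 ≤ X x)) * S x := by
      intro x
      by_cases h : 0 ≤ X x
      · have h' : (0 : ℝ) ≤ X x := by exact_mod_cast h
        simp only [h, decide_true, sgn, if_true, one_mul]
        cases abs_cases (S x) <;> cases abs_cases ((X x : ℝ) - S x) <;> linarith
      · have h' : (X x : ℝ) < 0 := by exact_mod_cast not_le.mp h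
        simp only [h, decide_false, sgn, Bool.false_eq_true, if_false]
        cases abs_cases (S x) <;> cases abs_cases ((X x : ℝ) - S x) <;> linarith
    refine le_trans ?_ (Finset.expect_le_expect fun x _ => h4 x)
    rw [Finset.expect_sub_distrib, ← Finset.mul_expect]
    linarith

section comp
variable {I κ : Type} [Fintype I] [DecidableEq I] [Fintype κ] [DecidableEq κ]

lemma expect_push (g : (κ → Bool) → Bool) (w : I → (κ → Bool) → ℝ) (c : I → Bool → ℝ)
    (hc : ∀ i b, 𝔼 ω, (if g ω = b then w i ω else 0) = c i b / 2) (f : (I → Bool) → ℝ) :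
    𝔼 u : I → κ → Bool, f (fun i => g (u i)) * ∏ i, w i (u i) = 𝔼 b, f b * ∏ i, c i (b i) := by
  have hK : (0 : ℝ) < Fintype.card (κ → Bool) := by exact_mod_cast Fintype.card_pos
  have h1 : ∀ i b, ∑ ω, (if g ω = b then w i ω else 0) =
      c i b * ((Fintype.card (κ → Bool) : ℝ) / 2) := by
    intro i b
    have := hc i b
    rw [Fintype.expect_eq_sum_div_card, div_eq_iff hK.ne'] at this
    rw [this]; ring
  rw [Fintype.expect_eq_sum_div_card, Fintype.expect_eq_sum_div_card,
    sum_push (fun _ => g) w f]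
  simp_rw [h1, Finset.prod_mul_distrib, ← mul_assoc, ← Finset.sum_mul]
  rw [Fintype.card_fun (α := I) (β := κ → Bool), Fintype.card_fun (α := I) (β := Bool)]
  simp only [Finset.prod_const, Finset.card_univ, Fintype.card_bool, Nat.cast_pow, Nat.cast_ofNat,
    div_pow]
  field_simp

end comp

lemma Bal.comp {d e : ℕ} {ℓ l : ℝ} (hf : Bal d ℓ) (hg : Bal e l) (hℓ : 0 ≤ ℓ) (hl : 0 ≤ l) :
    Bal (d * e) (ℓ * l) := by
  obtain ⟨I, _, _, f, hf1, hf2, hf3⟩ := hf
  obtain ⟨κ, _, _, g, hg1, hg2, hg3⟩ := hg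
  set L := 𝔼 x, sgn (g x) * S x with hL
  have hind : ∀ (b : Bool) (ω : κ → Bool) (r : ℝ),
      (if g ω = b then r else 0) = r / 2 + sgn b / 2 * (sgn (g ω) * r) := by
    intro b ω r
    cases b <;> cases g ω <;> simp [sgn] <;> ring
  have hc1 : ∀ b, 𝔼 ω, (if g ω = b then (1 : ℝ) else 0) = 1 / 2 := by
    intro b
    simp_rw [hind, Finset.expect_add_distrib, ← Finset.mul_expect, mul_one, hg2,
      Fintype.expect_const]
    simp
  have hc2 : ∀ b, 𝔼 ω, (if g ω = b then S ω else 0) = (sgn b * L) / 2 := by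
    intro b
    simp_rw [hind, Finset.expect_add_distrib, ← Finset.mul_expect, ← Finset.expect_div, expect_S,
      ← hL]
    ring
  refine ⟨I × κ, inferInstance, inferInstance, fun x => f fun i => g fun k => x (i, k),
    fun ψ => deg_comp_cost (hf1 ψ) fun i => hg1.comp (fun k => (i, k)) (fun _ b => b), ?_, ?_⟩
  · rw [expect_curry (fun u : I → κ → Bool => sgn (f fun i => g (u i)))]
    have := expect_push (I := I) g (fun _ _ => 1) (fun _ _ => 1) (fun _ b => hc1 b)
      (fun b => sgn (f b))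
    simpa [hf2] using this
  · simp_rw [S_prod]
    rw [expect_curry (fun u : I → κ → Bool => sgn (f fun i => g (u i)) * ∑ i, S (u i))]
    have h1 : ∀ i : I, 𝔼 u : I → κ → Bool, sgn (f fun i => g (u i)) * S (u i) =
        L * 𝔼 b, sgn (f b) * sgn (b i) := by
      intro i
      have := expect_push (I := I) g (fun j ω => if j = i then S ω else 1)
        (fun j b => if j = i then sgn b * L else 1) (fun j b => by
          by_cases h : j = i
          · simpa [h] using hc2 b
          · simpa [h] using hc1 b) (fun b => sgn (f b))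
      simp only [Finset.prod_ite_eq', Finset.mem_univ, if_true] at this
      rw [this, Finset.mul_expect]
      exact Finset.expect_congr rfl fun b _ => by ring
    simp_rw [Finset.mul_sum]
    rw [Finset.expect_sum_comm]
    simp_rw [h1]
    rw [← Finset.mul_sum, ← Finset.expect_sum_comm]
    simp_rw [← Finset.mul_sum]
    rw [mul_comm]
    exact mul_le_mul hg3 hf3 hℓ (hl.trans hg3)

lemma Bal.pow {d : ℕ} {ℓ : ℝ} (h : Bal d ℓ) (hℓ : 0 ≤ ℓ) (i : ℕ) :
    Bal (d ^ (i + 1)) (ℓ ^ (i + 1)) := by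
  induction i with
  | zero => simpa using h
  | succ i ih =>
    rw [pow_succ d, pow_succ ℓ]
    exact ih.comp h (by positivity) hℓ

theorem exists_bal_large (C : ℝ) : ∃ (d : ℕ) (ℓ : ℝ), 0 < ℓ ∧ C * Real.sqrt d < ℓ ∧ Bal d ℓ := by
  obtain ⟨d, ℓ, h0, hd, h1, h2⟩ := exists_bal
  have hd' : (0 : ℝ) < d := by exact_mod_cast hd
  have hsq : 0 < Real.sqrt d := Real.sqrt_pos.mpr hd'
  have h3 : 1 < ℓ / Real.sqrt d := by
    rw [one_lt_div hsq]
    exact Real.sqrt_lt' h0 |>.mpr h1
  obtain ⟨i, hi⟩ := pow_unbounded_of_one_lt C h3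
  refine ⟨d ^ (i + 1), ℓ ^ (i + 1), by positivity, ?_, h2.pow h0.le i⟩
  have h4 : C < (ℓ / Real.sqrt d) ^ (i + 1) :=
    hi.trans_le (pow_le_pow_right₀ h3.le (Nat.le_succ i))
  rw [div_pow, lt_div_iff₀ (by positivity)] at h4
  have h5 : Real.sqrt ((d ^ (i + 1) : ℕ) : ℝ) = Real.sqrt d ^ (i + 1) := by
    push_cast
    rw [Real.sqrt_eq_iff_mul_self_eq (by positivity) (by positivity), ← mul_pow,
      Real.mul_self_sqrt hd'.le]
  rwa [h5]

end Crest.Agent.R63
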