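import Crest.Agent.R63.Est
import Crest.Agent.Lib.Sunflower.Sunflower

/-! Cutting the levels of a cube into pieces with low-degree differences. -/

set_option autoImplicit false
set_option linter.unusedSectionVars false

namespace Crest.Agent.R63

open Finset
open scoped BigOperators

/-- integer coordinate sum -/
def iS {ι : Type} [Fintype ι] (z : ι → Bool) : ℤ := ∑ i, isgn (z i)

lemma cast_iS {ι : Type} [Fintype ι] (z : ι → Bool) : (iS z : ℝ) = S z := by
  simp [iS, S, cast_isgn]

lemma abs_isgn (b : Bool) : |isgn b| = 1 := by cases b <;> simp [isgn]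

lemma iS_mem {m : ℕ} (z : Fin m → Bool) : iS z ∈ Finset.Icc (-(m : ℤ)) m := by
  rw [Finset.mem_Icc, ← abs_le]
  refine (Finset.abs_sum_le_sum_abs _ _).trans ?_
  simp [abs_isgn]

/-- indicator of a piece of a level -/
noncomputable def ind {m : ℕ} {A : Type} [DecidableEq A] (lab : (Fin m → Bool) → Option A)
    (j : ℤ) (a : A) (z : Fin m → Bool) : ℝ :=
  if iS z = j ∧ lab z = some a then 1 else 0

/-- the index set of constrained characters -/
abbrev High (m r : ℕ) : Type := {T : Finset (Fin m) // m - r < T.card ∨ T = ∅}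

theorem exists_labels {A : Type} [Fintype A] [DecidableEq A] [Nonempty A] (m r t L : ℕ)
    (hL0 : 0 < L) (hL : Fintype.card A * t < 2 ^ L)
    (ht : (2 * t + 1) ^ Fintype.card (High m r) < 2 ^ t) :
    ∃ lab : (Fin m → Bool) → Option A,
      (∀ j a b, (fun z => ind lab j a z - ind lab j b z) ∈ Deg (Fin m) (m - r)) ∧
      (∀ a b, (Finset.univ.filter fun z => lab z = some a).card =
        (Finset.univ.filter fun z => lab z = some b).card) ∧
      (Finset.univ.filter fun z => lab z = none).card ≤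
        t * (1 + 8 * Fintype.card A * L) * (2 * m + 1) := by
  classical
  let v : (Fin m → Bool) → High m r → ℤ := fun z T => ∏ i ∈ T.1, isgn (z i)
  have hv : ∀ z T, |v z T| ≤ 1 := by
    intro z T
    simp [v, Finset.abs_prod, abs_isgn]
  have hvc : ∀ z T, (v z T : ℝ) = chi T.1 z := by
    intro z T
    simp [v, chi, cast_isgn]
  choose labj h1 h2 using fun j : ℤ => Lib.Sunflower.exists_pieces (A := A) v hv t L hL0 hL ht
    (Finset.univ.filter fun z => iS z = j)
  have key : ∀ j a, (Finset.univ.filter fun z => iS z = j).filter (fun z => labj j z = a) =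
      Finset.univ.filter fun z => iS z = j ∧ labj (iS z) z = a := by
    intro j a
    ext z
    simp only [Finset.mem_filter, Finset.mem_univ, true_and]
    constructor
    · rintro ⟨h3, h4⟩; exact ⟨h3, h3 ▸ h4⟩
    · rintro ⟨h3, h4⟩; exact ⟨h3, h3 ▸ h4⟩
  refine ⟨fun z => labj (iS z) z, fun j a b => ?_, fun a b => ?_, ?_⟩
  · refine deg_of_fourier fun T hT => ?_
    have h3 := h2 j a b ⟨T, Or.inl hT⟩
    rw [key, key] at h3
    have h4 : ∀ a, ∑ z, ind (fun z => labj (iS z) z) j a z * chi T z =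
        ((∑ z ∈ Finset.univ.filter fun z => iS z = j ∧ labj (iS z) z = some a,
          v z ⟨T, Or.inl hT⟩ : ℤ) : ℝ) := by
      intro a
      push_cast
      simp_rw [hvc, Finset.sum_filter, ind]
      refine Finset.sum_congr rfl fun z _ => by split_ifs <;> simp
    simp_rw [sub_mul, Finset.sum_sub_distrib, h4, h3, sub_self]
  · have h3 : ∀ a : A, (Finset.univ.filter fun z => labj (iS z) z = some a).card =
        ∑ j ∈ Finset.Icc (-(m : ℤ)) m,
          (Finset.univ.filter fun z => iS z = j ∧ labj (iS z) z = some a).card := by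
      intro a
      rw [Finset.card_eq_sum_card_fiberwise (f := iS) (t := Finset.Icc (-(m : ℤ)) m)
        (fun z _ => iS_mem z)]
      refine Finset.sum_congr rfl fun j _ => ?_
      congr 1
      ext z; simp [and_comm]
    rw [h3, h3]
    refine Finset.sum_congr rfl fun j _ => ?_
    have h4 := h2 j a b ⟨∅, Or.inr rfl⟩
    rw [key, key] at h4
    simpa [v] using h4
  · have h3 : (Finset.Icc (-(m : ℤ)) m).card = 2 * m + 1 := by
      rw [Int.card_Icc]; omega
    rw [← h3]
    refine Finset.card_le_mul_card_image_of_maps_to (f := iS) (fun z _ => iS_mem z) _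
      fun j _ => ?_
    refine le_trans (le_of_eq ?_) (h1 j)
    rw [key]
    congr 1
    ext z; simp [and_comm]

lemma card_High_le (m r : ℕ) : Fintype.card (High m r) ≤ 2 ^ m := by
  refine (Fintype.card_subtype_le _).trans ?_
  simp

lemma card_High_tail (s : ℕ) :
    (Fintype.card (High (20 * s) (9 * s)) : ℝ) ≤ 2 * (0.91 : ℝ) ^ s * 2 ^ (20 * s) := by
  classical
  rw [Fintype.card_subtype, Finset.filter_or]
  have h1 := Finset.card_union_le
    (Finset.univ.filter fun T : Finset (Fin (20 * s)) => 20 * s - 9 * s < T.card)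
    (Finset.univ.filter fun T : Finset (Fin (20 * s)) => T = ∅)
  have h2 : (Finset.univ.filter fun T : Finset (Fin (20 * s)) => T = ∅).card = 1 := by
    rw [Finset.filter_eq']; simp
  have h3 : ((Finset.univ.filter fun T : Finset (Fin (20 * s)) => 20 * s - 9 * s < T.card).card : ℝ)
      * (9 / 11) ^ (9 * s) ≤ (1 + 9 / 11) ^ (20 * s) := by
    have h4 := Fintype.sum_pow_mul_eq_add_pow (Fin (20 * s)) (1 : ℝ) (9 / 11)
    rw [Fintype.card_fin] at h4
    rw [← h4, Finset.card_filter]
    push_cast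
    rw [Finset.sum_mul]
    refine Finset.sum_le_sum fun T _ => ?_
    split_ifs with h
    · rw [one_mul, one_pow, one_mul]
      exact pow_le_pow_of_le_one (by norm_num) (by norm_num) (by omega)
    · rw [zero_mul]; positivity
  have h5 : ((1 : ℝ) + 9 / 11) ^ (20 * s) ≤ ((0.91 : ℝ) ^ s * 2 ^ (20 * s)) * (9 / 11) ^ (9 * s) := by
    rw [pow_mul, pow_mul, pow_mul, ← mul_pow, ← mul_pow]
    exact pow_le_pow_left₀ (by positivity) (by norm_num) s
  have h6 := le_of_mul_le_mul_right (h3.trans h5) (by positivity)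
  have h7 : (1 : ℝ) ≤ (0.91 : ℝ) ^ s * 2 ^ (20 * s) := by
    rw [pow_mul, ← mul_pow]
    exact one_le_pow₀ (by norm_num)
  rw [h2] at h1
  have h8 : ((Finset.univ.filter (fun T : Finset (Fin (20 * s)) => 20 * s - 9 * s < T.card) ∪
    Finset.univ.filter fun T : Finset (Fin (20 * s)) => T = ∅).card : ℝ) ≤
    ((Finset.univ.filter fun T : Finset (Fin (20 * s)) => 20 * s - 9 * s < T.card).card : ℝ) + 1 := by
    exact_mod_cast h1
  linarith

/-- Labels exist with small leftover, as soon as the label set is at most `1.05 ^ s`. -/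
theorem exists_labels' {A : Type} [Fintype A] [DecidableEq A] [Nonempty A] (s : ℕ)
    (hA : (Fintype.card A : ℝ) ≤ (1.05 : ℝ) ^ s) :
    ∃ lab : (Fin (20 * s) → Bool) → Option A,
      (∀ j a b, (fun z => ind lab j a z - ind lab j b z) ∈ Deg (Fin (20 * s)) (11 * s)) ∧
      (∀ a b, (Finset.univ.filter fun z => lab z = some a).card =
        (Finset.univ.filter fun z => lab z = some b).card) ∧
      ((Finset.univ.filter fun z => lab z = none).card : ℝ) ≤
        (2000000 * (s + 1) ^ 3 * (0.96 : ℝ) ^ s) * 2 ^ (20 * s) := by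
  set m := 20 * s with hm
  set M := Fintype.card (High m (9 * s)) with hM
  have hM2 : M ≤ 2 ^ m := card_High_le _ _
  have hMpos : 0 < M := Fintype.card_pos_iff.mpr ⟨⟨∅, Or.inr rfl⟩⟩
  have hA2 : Fintype.card A ≤ 2 ^ m := by
    have : (1.05 : ℝ) ^ s ≤ 2 ^ m := by
      rw [hm, pow_mul]
      exact pow_le_pow_left₀ (by norm_num) (by norm_num) s
    exact_mod_cast hA.trans this
  have hlt : m + 2 < 2 ^ (m + 2) := Nat.lt_two_pow_self
  obtain ⟨lab, h1, h2, h3⟩ := exists_labels (A := A) m (9 * s) (M * (2 * m + 5)) (3 * m + 4)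
    (by omega)
    (by
      have h4 : 2 * m + 5 < 2 ^ (m + 4) := by
        rw [show m + 4 = (m + 2) + 2 by ring, pow_add]; omega
      calc Fintype.card A * (M * (2 * m + 5)) ≤ 2 ^ m * (2 ^ m * (2 * m + 5)) :=
            Nat.mul_le_mul hA2 (Nat.mul_le_mul_right _ hM2)
        _ < 2 ^ m * (2 ^ m * 2 ^ (m + 4)) :=
            Nat.mul_lt_mul_of_pos_left (Nat.mul_lt_mul_of_pos_left h4 (by positivity))
              (by positivity)
        _ = 2 ^ (3 * m + 4) := by ring)
    (by
      rw [← hM, mul_comm M, pow_mul]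
      refine Nat.pow_lt_pow_left ?_ hMpos.ne'
      have h4 : 2 * m + 6 ≤ 2 ^ (m + 3) := by
        rw [show m + 3 = (m + 2) + 1 by ring, pow_add]; omega
      have h5 : 0 < 2 ^ m := by positivity
      calc 2 * ((2 * m + 5) * M) + 1 < 2 * ((2 * m + 6) * 2 ^ m) + 2 * ((2 * m + 6) * 2 ^ m) := by
            nlinarith
        _ ≤ 2 * (2 ^ (m + 3) * 2 ^ m) + 2 * (2 ^ (m + 3) * 2 ^ m) := by
            have := Nat.mul_le_mul_right (2 ^ m) h4
            omega
        _ = 2 ^ (2 * m + 5) := by ring)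
  refine ⟨lab, fun j a b => ?_, h2, ?_⟩
  · have := h1 j a b
    rwa [show m - 9 * s = 11 * s by omega] at this
  · have h4 : ((Finset.univ.filter fun z => lab z = none).card : ℝ) ≤
        M * (2 * m + 5) * (1 + 8 * Fintype.card A * (3 * m + 4)) * (2 * m + 1) := by
      exact_mod_cast h3
    have h5 : (M : ℝ) ≤ 2 * (0.91 : ℝ) ^ s * 2 ^ m := card_High_tail s
    have h6 : (1 : ℝ) ≤ (1.05 : ℝ) ^ s := one_le_pow₀ (by norm_num)
    have hmr : (m : ℝ) = 20 * s := by rw [hm]; push_cast; ring
    have hs0 : (0 : ℝ) ≤ s := by positivity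
    have h7 : (1 + 8 * (Fintype.card A : ℝ) * (3 * m + 4)) ≤ (1.05 : ℝ) ^ s * (500 * (s + 1)) := by
      rw [hmr]
      have : (Fintype.card A : ℝ) * (3 * (20 * s) + 4) ≤ (1.05 : ℝ) ^ s * (3 * (20 * s) + 4) :=
        mul_le_mul_of_nonneg_right hA (by positivity)
      nlinarith
    have h8 : (2 * (m : ℝ) + 5) ≤ 40 * (s + 1) := by rw [hmr]; linarith
    have h9 : (2 * (m : ℝ) + 1) ≤ 40 * (s + 1) := by rw [hmr]; linarith
    have h10 : (0.91 : ℝ) ^ s * (1.05 : ℝ) ^ s ≤ (0.96 : ℝ) ^ s := by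
      rw [← mul_pow]; exact pow_le_pow_left₀ (by norm_num) (by norm_num) s
    calc ((Finset.univ.filter fun z => lab z = none).card : ℝ)
        ≤ M * (2 * m + 5) * (1 + 8 * Fintype.card A * (3 * m + 4)) * (2 * m + 1) := h4
      _ ≤ (2 * (0.91 : ℝ) ^ s * 2 ^ m) * (40 * (s + 1)) * ((1.05 : ℝ) ^ s * (500 * (s + 1))) *
          (40 * (s + 1)) := by gcongr
      _ = (1600000 * (s + 1) ^ 3 * ((0.91 : ℝ) ^ s * (1.05 : ℝ) ^ s)) * 2 ^ m := by ring
      _ ≤ (2000000 * (s + 1) ^ 3 * (0.96 : ℝ) ^ s) * 2 ^ m := by gcongr; norm_num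

end Crest.Agent.R63
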