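import Crest.Agent.R63.Deg

/-! Elementary expectation lemmas on finite product spaces. -/

set_option autoImplicit false
set_option linter.unusedSectionVars false

namespace Crest.Agent.R63

open Finset
open scoped BigOperators

lemma sum_push {I Ω V : Type} [Fintype I] [DecidableEq I] [Fintype Ω] [Fintype V] [DecidableEq V]
    (g : I → Ω → V) (w : I → Ω → ℝ) (f : (I → V) → ℝ) :
    ∑ x : I → Ω, f (fun i => g i (x i)) * ∏ i, w i (x i) =
      ∑ b : I → V, f b * ∏ i, ∑ ω, if g i ω = b i then w i ω else 0 := by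
  simp_rw [Fintype.prod_sum, Finset.mul_sum]
  rw [Finset.sum_comm]
  refine Finset.sum_congr rfl fun x _ => ?_
  rw [Finset.sum_eq_single (fun i => g i (x i))]
  · simp
  · intro b _ hb
    obtain ⟨i, hi⟩ := Function.ne_iff.mp hb
    rw [Finset.prod_eq_zero (Finset.mem_univ i), mul_zero]
    rw [if_neg (Ne.symm hi)]
  · simp

lemma expect_prod' {α β : Type} [Fintype α] [Fintype β] (F : α → β → ℝ) :
    𝔼 p : α × β, F p.1 p.2 = 𝔼 a, 𝔼 b, F a b := by
  rw [← Finset.expect_product', Finset.univ_product_univ]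

lemma expect_sum_type {ι κ Ω : Type} [Fintype ι] [DecidableEq ι] [Fintype κ] [DecidableEq κ]
    [Fintype Ω] (F : (ι → Ω) → (κ → Ω) → ℝ) :
    𝔼 x : ι ⊕ κ → Ω, F (fun i => x (Sum.inl i)) (fun k => x (Sum.inr k)) = 𝔼 z, 𝔼 u, F z u := by
  rw [← expect_prod']
  exact Fintype.expect_equiv (Equiv.sumArrowEquivProdArrow ι κ Ω) _ _ fun x => rfl

lemma expect_curry {I κ Ω : Type} [Fintype I] [DecidableEq I] [Fintype κ] [DecidableEq κ]
    [Fintype Ω] (F : (I → κ → Ω) → ℝ) :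
    𝔼 x : I × κ → Ω, F (fun i k => x (i, k)) = 𝔼 u, F u :=
  Fintype.expect_equiv (Equiv.curry I κ Ω) _ _ fun _ => rfl

lemma expect_not {ι : Type} [Fintype ι] [DecidableEq ι] (F : (ι → Bool) → ℝ) :
    𝔼 x : ι → Bool, F (fun i => !x i) = 𝔼 x, F x := by
  have h : Function.Involutive (fun (x : ι → Bool) i => !x i) := fun x => by simp
  exact Fintype.expect_equiv h.toPerm _ _ fun _ => rfl

lemma expect_cons {Ω : Type} [Fintype Ω] (N : ℕ) (G : ℝ → ℝ) (f : Ω → ℝ) :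
    𝔼 x : Fin (N + 1) → Ω, G (∑ i, f (x i)) =
      𝔼 x : Fin N → Ω, 𝔼 ω, G (f ω + ∑ i, f (x i)) := by
  rw [Finset.expect_comm, ← expect_prod' (fun (ω : Ω) (x : Fin N → Ω) => G (f ω + ∑ i, f (x i)))]
  refine (Fintype.expect_equiv (Fin.consEquiv fun _ => Ω) _ _ fun p => ?_).symm
  simp [Fin.sum_univ_succ, Fin.consEquiv]

lemma expect_transfer {I Ω : Type} [Fintype I] [DecidableEq I] [Fintype Ω] (G : ℝ → ℝ)
    (f : Ω → ℝ) :
    𝔼 x : I → Ω, G (∑ i, f (x i)) = 𝔼 x : Fin (Fintype.card I) → Ω, G (∑ i, f (x i)) := by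
  refine Fintype.expect_equiv (Equiv.arrowCongr (Fintype.equivFin I) (Equiv.refl Ω)) _ _
    fun x => ?_
  congr 1
  refine Fintype.sum_equiv (Fintype.equivFin I) _ _ fun i => by simp

section moments
variable {Ω : Type} [Fintype Ω] [Nonempty Ω] {f : Ω → ℝ}

lemma moment1 (hf : 𝔼 ω, f ω = 0) (N : ℕ) : 𝔼 x : Fin N → Ω, (∑ i, f (x i)) = 0 := by
  induction N with
  | zero => simp
  | succ N ih =>
    have := expect_cons N (fun s => s) f
    rw [this]
    simp_rw [Finset.expect_add_distrib, hf, Fintype.expect_const, zero_add]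
    exact ih

lemma moment2 (hf : 𝔼 ω, f ω = 0) (N : ℕ) :
    𝔼 x : Fin N → Ω, (∑ i, f (x i)) ^ 2 = N * 𝔼 ω, f ω ^ 2 := by
  induction N with
  | zero => simp
  | succ N ih =>
    rw [expect_cons N (fun s => s ^ 2) f]
    have h1 : ∀ s : ℝ, 𝔼 ω, (f ω + s) ^ 2 = (𝔼 ω, f ω ^ 2) + s ^ 2 := by
      intro s
      have : ∀ ω, (f ω + s) ^ 2 = f ω ^ 2 + (2 * s) * f ω + s ^ 2 := fun ω => by ring
      simp_rw [this, Finset.expect_add_distrib, ← Finset.mul_expect, hf, Fintype.expect_const]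
      ring
    simp_rw [h1, Finset.expect_add_distrib, Fintype.expect_const, ih]
    push_cast; ring

lemma moment4 (hf : 𝔼 ω, f ω = 0) {B : ℝ} (hB : ∀ ω, |f ω| ≤ B) (N : ℕ) :
    𝔼 x : Fin N → Ω, (∑ i, f (x i)) ^ 4 ≤ 3 * N ^ 2 * B ^ 4 := by
  have hB0 : 0 ≤ B := (abs_nonneg _).trans (hB (Classical.arbitrary Ω))
  have h2 : 𝔼 ω, f ω ^ 2 ≤ B ^ 2 :=
    Finset.expect_le Finset.univ_nonempty fun ω _ => by
      rw [← sq_abs]; exact pow_le_pow_left₀ (abs_nonneg _) (hB ω) 2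
  have h2' : 0 ≤ 𝔼 ω, f ω ^ 2 := Finset.expect_nonneg fun ω _ => sq_nonneg _
  have h4 : 𝔼 ω, f ω ^ 4 ≤ B ^ 4 :=
    Finset.expect_le Finset.univ_nonempty fun ω _ => by
      rw [← Even.pow_abs (by decide)]; exact pow_le_pow_left₀ (abs_nonneg _) (hB ω) 4
  induction N with
  | zero => simp
  | succ N ih =>
    rw [expect_cons N (fun s => s ^ 4) f]
    have h1 : ∀ s : ℝ, 𝔼 ω, (f ω + s) ^ 4 = (𝔼 ω, f ω ^ 4) + (4 * 𝔼 ω, f ω ^ 3) * s +
        (6 * 𝔼 ω, f ω ^ 2) * s ^ 2 + s ^ 4 := by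
      intro s
      have : ∀ ω, (f ω + s) ^ 4 = f ω ^ 4 + (4 * s) * f ω ^ 3 + (6 * s ^ 2) * f ω ^ 2 +
        (4 * s ^ 3) * f ω + s ^ 4 := fun ω => by ring
      simp_rw [this, Finset.expect_add_distrib, ← Finset.mul_expect, hf, Fintype.expect_const]
      ring
    simp_rw [h1, Finset.expect_add_distrib, Fintype.expect_const, ← Finset.mul_expect,
      moment1 hf, moment2 hf]
    have h5 : (𝔼 ω, f ω ^ 2) * (𝔼 ω, f ω ^ 2) ≤ B ^ 4 := by
      calc _ ≤ B ^ 2 * B ^ 2 := mul_le_mul h2 h2 h2' (by positivity)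
        _ = B ^ 4 := by ring
    have hN : (0 : ℝ) ≤ N := by positivity
    have h6 : 0 ≤ B ^ 4 := by positivity
    push_cast
    nlinarith [mul_le_mul_of_nonneg_left h5 hN]

end moments

/-- the coordinate sum -/
noncomputable def S {ι : Type} [Fintype ι] (x : ι → Bool) : ℝ := ∑ i, sgn (x i)

lemma expect_sgn : 𝔼 b : Bool, sgn b = 0 := by
  rw [Fintype.expect_eq_sum_div_card]
  simp [sgn]

lemma expect_S {ι : Type} [Fintype ι] [DecidableEq ι] : 𝔼 x : ι → Bool, S x = 0 := by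
  unfold S
  rw [expect_transfer (fun s => s) sgn]
  exact moment1 expect_sgn _

lemma expect_S_sq {ι : Type} [Fintype ι] [DecidableEq ι] :
    𝔼 x : ι → Bool, S x ^ 2 = Fintype.card ι := by
  unfold S
  rw [expect_transfer (fun s => s ^ 2) sgn, moment2 expect_sgn]
  simp [sgn]

lemma S_not {ι : Type} [Fintype ι] (x : ι → Bool) : S (fun i => !x i) = - S x := by
  simp [S, sgn_not]

lemma S_sum_type {ι κ : Type} [Fintype ι] [Fintype κ] (x : ι ⊕ κ → Bool) :
    S x = S (fun i => x (Sum.inl i)) + S (fun k => x (Sum.inr k)) := by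
  simp [S, Fintype.sum_sum_type]

lemma S_prod {I κ : Type} [Fintype I] [Fintype κ] (x : I × κ → Bool) :
    S x = ∑ i, S (fun k => x (i, k)) := by
  simp [S, Fintype.sum_prod_type]

lemma expect_abs_le_sqrt {Ω : Type} [Fintype Ω] [Nonempty Ω] (f : Ω → ℝ) :
    𝔼 ω, |f ω| ≤ Real.sqrt (𝔼 ω, f ω ^ 2) := by
  refine Real.le_sqrt_of_sq_le ?_
  have := Finset.expect_mul_sq_le_sq_mul_sq Finset.univ (fun ω => |f ω|) (fun _ => (1 : ℝ))
  simpa using this

end Crest.Agent.R63
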