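import Crest.Agent.R63.Label

/-! The inductive step: cheap estimators of the coordinate sum. -/

set_option autoImplicit false
set_option linter.unusedSectionVars false

namespace Crest.Agent.R63

open Finset
open scoped BigOperators

section core
variable {m : ℕ} {κ A : Type} [Fintype κ] [DecidableEq κ] [Fintype A] [DecidableEq A] [Nonempty A]

/-- glue a labelled block and a family of estimators -/
def glue (lab : (Fin m → Bool) → Option A) (e : (κ → Bool) → A → ℤ) (x : Fin m ⊕ κ → Bool) : ℤ :=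
  iS (fun i => x (Sum.inl i)) +
    (lab fun i => x (Sum.inl i)).elim 0 (e fun k => x (Sum.inr k))

lemma deg_inl {d : ℕ} {f : (Fin m → Bool) → ℝ} (hf : f ∈ Deg (Fin m) d) :
    (fun x : Fin m ⊕ κ → Bool => f fun i => x (Sum.inl i)) ∈ Deg (Fin m ⊕ κ) d :=
  deg_comp Sum.inl (fun _ b => b) hf

lemma deg_inr {d : ℕ} {f : (κ → Bool) → ℝ} (hf : f ∈ Deg κ d) :
    (fun x : Fin m ⊕ κ → Bool => f fun i => x (Sum.inr i)) ∈ Deg (Fin m ⊕ κ) d :=
  deg_comp Sum.inr (fun _ b => b) hf

lemma glue_cost (lab : (Fin m → Bool) → Option A) (e : (κ → Bool) → A → ℤ) {d₁ d₂ d₃ : ℕ}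
    (hlab : ∀ j a b, (fun z => ind lab j a z - ind lab j b z) ∈ Deg (Fin m) d₁)
    (he : ∀ a, Cost (fun u => e u a) d₂) (hd : d₁ + d₂ ≤ m + d₃)
    (havg : ∀ ψ : ℤ → ℝ, (fun u => ∑ a, ψ (e u a)) ∈ Deg κ d₃) :
    Cost (glue lab e) (m + d₃) := by
  intro ψ
  let a₀ : A := Classical.arbitrary A
  have h1 : (fun x => ψ (glue lab e x)) = fun x : Fin m ⊕ κ → Bool =>
      (if lab (fun i => x (Sum.inl i)) = none then ψ (iS fun i => x (Sum.inl i)) else 0) +
      ∑ j ∈ Finset.Icc (-(m : ℤ)) m,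
        (ind lab j a₀ (fun i => x (Sum.inl i)) * ∑ a, ψ (j + e (fun k => x (Sum.inr k)) a) +
         ∑ a, (ind lab j a (fun i => x (Sum.inl i)) - ind lab j a₀ (fun i => x (Sum.inl i))) *
           ψ (j + e (fun k => x (Sum.inr k)) a)) := by
    funext x
    have h2 : ∀ j : ℤ, (ind lab j a₀ (fun i => x (Sum.inl i)) *
        ∑ a, ψ (j + e (fun k => x (Sum.inr k)) a) +
         ∑ a, (ind lab j a (fun i => x (Sum.inl i)) - ind lab j a₀ (fun i => x (Sum.inl i))) *
           ψ (j + e (fun k => x (Sum.inr k)) a)) =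
        ∑ a, ind lab j a (fun i => x (Sum.inl i)) * ψ (j + e (fun k => x (Sum.inr k)) a) := by
      intro j
      rw [Finset.mul_sum, ← Finset.sum_add_distrib]
      exact Finset.sum_congr rfl fun a _ => by ring
    simp_rw [h2]
    rw [Finset.sum_eq_single (iS fun i => x (Sum.inl i))]
    · unfold glue
      cases h : lab (fun i => x (Sum.inl i)) with
      | none => simp [ind, h]
      | some a => simp [ind, h]
    · intro j _ hj
      simp [ind, Ne.symm hj]
    · intro hc
      exact absurd (iS_mem _) hc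
  rw [h1]
  refine deg_add (deg_mono (Nat.le_add_right _ _)
    (deg_inl (f := fun z => if lab z = none then ψ (iS z) else 0) (deg_top (by simp) _))) ?_
  refine deg_sum _ _ fun j _ => deg_add ?_ ?_
  · exact deg_mul (deg_inl (deg_top (by simp) (ind lab j a₀)))
      (deg_inr (havg fun v => ψ (j + v)))
  · refine deg_sum _ _ fun a _ => deg_mono hd ?_
    exact deg_mul (deg_inl (hlab j a a₀)) (deg_inr (he a fun v => ψ (j + v)))

lemma glue_mse (lab : (Fin m → Bool) → Option A) (e : (κ → Bool) → A → ℤ) {η δ : ℝ}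
    (hcard : ∀ a b, (Finset.univ.filter fun z => lab z = some a).card =
        (Finset.univ.filter fun z => lab z = some b).card)
    (hnone : ((Finset.univ.filter fun z => lab z = none).card : ℝ) ≤ η * 2 ^ m)
    (he : 𝔼 u, 𝔼 a, ((e u a : ℝ) - S u) ^ 2 ≤ δ) :
    𝔼 x, ((glue lab e x : ℝ) - S x) ^ 2 ≤ η * Fintype.card κ + δ := by
  let g : Option A → ℝ := fun o => 𝔼 u, (((o.elim 0 (e u) : ℤ) : ℝ) - S u) ^ 2
  have h1 : 𝔼 x, ((glue lab e x : ℝ) - S x) ^ 2 = 𝔼 z, g (lab z) := by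
    rw [← expect_sum_type (fun z u => ((((lab z).elim 0 (e u) : ℤ) : ℝ) - S u) ^ 2)]
    refine Finset.expect_congr rfl fun x _ => ?_
    rw [S_sum_type, glue]
    push_cast
    rw [cast_iS]
    ring
  have hg0 : g none = Fintype.card κ := by
    simp only [g, Option.elim_none, Int.cast_zero, zero_sub, neg_sq]
    exact expect_S_sq
  have hgn : ∀ o, 0 ≤ g o := fun o => Finset.expect_nonneg fun u _ => sq_nonneg _
  have he' : 𝔼 a, g (some a) ≤ δ := by
    rw [Finset.expect_comm] at he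
    exact he
  let a₀ : A := Classical.arbitrary A
  set c := (Finset.univ.filter fun z => lab z = some a₀).card with hc
  have h2 : ∀ G : Option A → ℝ, ∑ z, G (lab z) =
      (Finset.univ.filter fun z => lab z = none).card * G none + c * ∑ a, G (some a) := by
    intro G
    rw [← Finset.sum_fiberwise (s := Finset.univ) (g := lab), Fintype.sum_option, Finset.mul_sum]
    congr 1
    · rw [Finset.sum_congr rfl (g := fun _ => G none)
        fun z hz => by rw [(Finset.mem_filter.mp hz).2]]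
      simp
    · refine Finset.sum_congr rfl fun a _ => ?_
      rw [Finset.sum_congr rfl (g := fun _ => G (some a))
        fun z hz => by rw [(Finset.mem_filter.mp hz).2]]
      simp [hc, hcard a a₀]
  have h3 := h2 fun _ => 1
  simp only [Finset.sum_const, Finset.card_univ, Fintype.card_fun, Fintype.card_bool,
    Fintype.card_fin, nsmul_eq_mul, mul_one, Nat.cast_pow, Nat.cast_ofNat] at h3
  have hA : (0 : ℝ) < Fintype.card A := by exact_mod_cast Fintype.card_pos
  rw [Fintype.expect_eq_sum_div_card, div_le_iff₀ hA] at he'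
  have hδ : 0 ≤ δ := by
    have : 0 ≤ δ * Fintype.card A := (Finset.sum_nonneg fun a _ => hgn _).trans he'
    exact nonneg_of_mul_nonneg_left this hA
  rw [h1, Fintype.expect_eq_sum_div_card, h2, hg0]
  simp only [Fintype.card_fun, Fintype.card_bool, Fintype.card_fin, Nat.cast_pow, Nat.cast_ofNat]
  rw [div_le_iff₀ (by positivity)]
  have h4 : (c : ℝ) * Fintype.card A ≤ 2 ^ m := by
    have : (0 : ℝ) ≤ (Finset.univ.filter fun z => lab z = none).card := by positivity
    linarith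
  have h5 : (c : ℝ) * ∑ a, g (some a) ≤ δ * 2 ^ m := by
    calc (c : ℝ) * ∑ a, g (some a) ≤ c * (δ * Fintype.card A) :=
          mul_le_mul_of_nonneg_left he' (by positivity)
      _ = δ * (c * Fintype.card A) := by ring
      _ ≤ δ * 2 ^ m := mul_le_mul_of_nonneg_left h4 hδ
  have h6 : ((Finset.univ.filter fun z => lab z = none).card : ℝ) * Fintype.card κ ≤
      η * 2 ^ m * Fintype.card κ := mul_le_mul_of_nonneg_right hnone (by positivity)
  nlinarith

end core

section copies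
variable {ι : Type} [Fintype ι] [DecidableEq ι]

/-- the sum of `N` independent copies -/
def copies (N : ℕ) (X : (ι → Bool) → ℤ) (u : Fin N × ι → Bool) : ℤ := ∑ i, X fun k => u (i, k)

lemma copies_cost {X : (ι → Bool) → ℤ} {D : ℕ} (hX : Cost X D) (N : ℕ) :
    Cost (copies N X) (N * D) := by
  have h := Cost.pi (I := Fin N) (X := fun i (u : Fin N × ι → Bool) => X fun k => u (i, k))
    (fun i => hX.comp (fun k => (i, k)) (fun _ b => b))
  rw [Fintype.card_fin] at h
  exact h.map fun τ => ∑ i, τ i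

lemma copies_deg {X : (ι → Bool) → ℤ} {D : ℕ} (hX : Cost X D) (N : ℕ) :
    (fun u => (copies N X u : ℝ)) ∈ Deg (Fin N × ι) D := by
  have := deg_sum (Finset.univ : Finset (Fin N))
    (fun i (u : Fin N × ι → Bool) => ((X fun k => u (i, k) : ℤ) : ℝ))
    (fun i _ => hX.comp (fun k => (i, k)) (fun _ b => b) (fun v => (v : ℝ)))
  simpa [copies] using this

lemma copies_abs {X : (ι → Bool) → ℤ} {B : ℕ} (hB : ∀ x, |X x| ≤ B) (N : ℕ) (u) :
    |copies N X u| ≤ (B * N : ℕ) := by
  refine (Finset.abs_sum_le_sum_abs _ _).trans ?_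
  refine (Finset.sum_le_sum fun i _ => hB _).trans ?_
  simp [mul_comm]

lemma copies_m4 {X : (ι → Bool) → ℤ} {B : ℕ} (hB : ∀ x, |X x| ≤ B) (h0 : 𝔼 x, (X x : ℝ) = 0)
    (N : ℕ) : 𝔼 u, (copies N X u : ℝ) ^ 4 ≤ 3 * N ^ 2 * B ^ 4 := by
  have := moment4 (f := fun x => (X x : ℝ)) h0 (B := B) (fun x => by exact_mod_cast hB x) N
  rw [← expect_curry (fun u : Fin N → ι → Bool => (∑ i, (X (u i) : ℝ)) ^ 4)] at this
  simpa [copies] using this

lemma copies_mse {X : (ι → Bool) → ℤ} (h0 : 𝔼 x, (X x : ℝ) = 0) (N : ℕ) :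
    𝔼 u, ((copies N X u : ℝ) - S u) ^ 2 = N * 𝔼 x, ((X x : ℝ) - S x) ^ 2 := by
  have h1 : 𝔼 x, ((X x : ℝ) - S x) = 0 := by
    rw [Finset.expect_sub_distrib, h0, expect_S, sub_zero]
  have := moment2 h1 N
  rw [← expect_curry (fun u : Fin N → ι → Bool => (∑ i, ((X (u i) : ℝ) - S (u i))) ^ 2)] at this
  rw [← this]
  refine Finset.expect_congr rfl fun u _ => ?_
  simp [copies, S_prod, Finset.sum_sub_distrib]

end copies

/-- `Good κ`: the coordinate sum has accurate estimators of cost at most `n / κ`. -/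
def Good (κ : ℝ) : Prop :=
  ∀ ε : ℝ, 0 < ε → ∀ n₀ : ℕ, ∃ (ι : Type) (_ : Fintype ι) (_ : DecidableEq ι)
    (X : (ι → Bool) → ℤ) (D : ℕ), n₀ ≤ Fintype.card ι ∧ Even (Fintype.card ι) ∧ 1 ≤ D ∧
      κ * D ≤ Fintype.card ι ∧ Cost X D ∧ 𝔼 x, (X x : ℝ) = 0 ∧
      𝔼 x, ((X x : ℝ) - S x) ^ 2 ≤ ε * Fintype.card ι

/-- the same, before symmetrisation -/
def Good₀ (κ : ℝ) : Prop :=
  ∀ ε : ℝ, 0 < ε → ∀ n₀ : ℕ, ∃ (ι : Type) (_ : Fintype ι) (_ : DecidableEq ι)
    (X : (ι → Bool) → ℤ) (D : ℕ), n₀ ≤ Fintype.card ι ∧ 1 ≤ D ∧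
      κ * D ≤ Fintype.card ι ∧ Cost X D ∧ 𝔼 x, ((X x : ℝ) - S x) ^ 2 ≤ ε * Fintype.card ι

lemma Good₀.good {κ : ℝ} (h : Good₀ κ) : Good κ := by
  intro ε hε n₀
  obtain ⟨ι, _, _, X, D, h1, h2, h3, h4, h5⟩ := h (ε / 2) (by positivity) n₀
  refine ⟨ι ⊕ ι, inferInstance, inferInstance,
    fun x => X (fun i => x (Sum.inl i)) - X (fun i => !x (Sum.inr i)), D + D, ?_, ?_, by omega,
    ?_, ?_, ?_, ?_⟩
  · simp only [Fintype.card_sum]; omega
  · simp only [Fintype.card_sum]; exact ⟨_, rfl⟩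
  · simp only [Fintype.card_sum]; push_cast; linarith
  · exact ((h4.comp Sum.inl (fun _ b => b)).pair (h4.comp Sum.inr (fun _ b => !b))).map
      fun p => p.1 - p.2
  · push_cast
    rw [expect_sum_type (fun z u => (X z : ℝ) - X fun i => !u i)]
    simp_rw [Finset.expect_sub_distrib, Fintype.expect_const,
      expect_not (fun u => (X u : ℝ)), sub_self]
  · have e : ∀ x : ι ⊕ ι → Bool,
        (((X (fun i => x (Sum.inl i)) - X (fun i => !x (Sum.inr i)) : ℤ) : ℝ) - S x) ^ 2 ≤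
        2 * ((X (fun i => x (Sum.inl i)) : ℝ) - S (fun i => x (Sum.inl i))) ^ 2 +
        2 * ((X (fun i => !x (Sum.inr i)) : ℝ) - S (fun i => !x (Sum.inr i))) ^ 2 := by
      intro x
      rw [S_sum_type, S_not]
      push_cast
      nlinarith [sq_nonneg ((X (fun i => x (Sum.inl i)) : ℝ) - S (fun i => x (Sum.inl i)) +
        ((X (fun i => !x (Sum.inr i)) : ℝ) + S (fun i => x (Sum.inr i))))]
    refine (Finset.expect_le_expect fun x _ => e x).trans ?_
    rw [expect_sum_type (fun z u => 2 * ((X z : ℝ) - S z) ^ 2 +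
      2 * ((X (fun i => !u i) : ℝ) - S (fun i => !u i)) ^ 2)]
    simp_rw [Finset.expect_add_distrib, Fintype.expect_const, ← Finset.mul_expect,
      expect_not (fun u => ((X u : ℝ) - S u) ^ 2)]
    simp only [Fintype.card_sum]
    push_cast
    linarith

lemma good₀_one : Good₀ 1 := by
  intro ε hε n₀
  refine ⟨Fin (n₀ + 1), inferInstance, inferInstance, iS, n₀ + 1, by simp, by omega, by simp,
    fun ψ => deg_top (by simp) _, ?_⟩
  simp only [cast_iS, sub_self]
  simp
  positivity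

end Crest.Agent.R63
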