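import Crest.Agent.R63.Step

/-! The inductive step with its choice of parameters. -/

set_option autoImplicit false
set_option linter.unusedSectionVars false

namespace Crest.Agent.R63

open Finset Filter
open scoped BigOperators

lemma ev_poly_le (K : ℝ) : ∀ᶠ c : ℕ in atTop, K * (c : ℝ) ^ 2 ≤ (1.05 : ℝ) ^ c := by
  have h := (tendsto_pow_const_div_const_pow_of_one_lt 2 (show (1 : ℝ) < 1.05 by norm_num)).const_mul K
  rw [mul_zero] at h
  filter_upwards [h.eventually (ge_mem_nhds (show (0 : ℝ) < 1 by norm_num))] with c hc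
  rw [← mul_div_assoc, div_le_one (by positivity)] at hc
  exact hc

lemma ev_small {ε : ℝ} (hε : 0 < ε) :
    ∀ᶠ s : ℕ in atTop, 2000000 * ((s : ℝ) + 1) ^ 3 * (0.96 : ℝ) ^ s ≤ ε := by
  have h := (tendsto_pow_const_mul_const_pow_of_abs_lt_one 3
    (show |(0.96 : ℝ)| < 1 by rw [abs_of_pos] <;> norm_num)).const_mul 16000000
  rw [mul_zero] at h
  filter_upwards [h.eventually (ge_mem_nhds hε), eventually_ge_atTop 1] with s hs h1
  refine le_trans ?_ hs
  have h2 : (1 : ℝ) ≤ s := by exact_mod_cast h1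
  have h3 : ((s : ℝ) + 1) ^ 3 ≤ (2 * s) ^ 3 := pow_le_pow_left₀ (by positivity) (by linarith) 3
  have h4 : (0 : ℝ) ≤ (0.96 : ℝ) ^ s := by positivity
  nlinarith [mul_le_mul_of_nonneg_right h3 h4]

theorem Good.step {κ κ' : ℝ} (h : Good κ) (hκ : 20 * κ' < 20 + 9 * κ) : Good₀ κ' := by
  intro ε hε n₀
  obtain ⟨ι, _, _, X, D, hn, -, hD, hκD, hX, hX0, hmse⟩ := h (ε / 8) (by positivity) 1
  -- a bound for the estimator
  obtain ⟨B, hBpos, hB⟩ : ∃ B : ℕ, 0 < B ∧ ∀ x, |X x| ≤ B := by
    refine ⟨(∑ x, (X x).natAbs) + 1, by omega, fun x => ?_⟩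
    have := Finset.single_le_sum (f := fun x => (X x).natAbs) (fun _ _ => Nat.zero_le _)
      (Finset.mem_univ x)
    rw [← Int.natCast_natAbs]
    exact_mod_cast this.trans (Nat.le_succ _)
  obtain ⟨e, he⟩ := pow_unbounded_of_one_lt (576 * (B : ℝ) ^ 2 / ε) (show (1 : ℝ) < 3 by norm_num)
  rw [div_lt_iff₀ hε] at he
  obtain ⟨R, hR⟩ := exists_nat_gt (6 * 3 ^ e * (B : ℝ) ^ 2 / ε)
  have hRpos' : (0 : ℝ) < R := lt_of_le_of_lt (by positivity) hR
  have hRpos : 0 < R := by exact_mod_cast hRpos'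
  rw [div_lt_iff₀ hε] at hR
  obtain ⟨c₁, hc₁⟩ := eventually_atTop.mp (ev_poly_le (18 * B * 3 ^ e * R))
  obtain ⟨c₂, hc₂⟩ := eventually_atTop.mp (ev_small (ε := ε / 4) (by positivity))
  obtain ⟨c₃, hc₃⟩ := exists_nat_gt (κ' / (20 + 9 * κ - 20 * κ'))
  rw [div_lt_iff₀ (by linarith)] at hc₃
  set j := c₁ + c₂ + c₃ + n₀ with hj
  set c := 3 ^ j with hc
  have hjc : j < c := Nat.lt_pow_self (by norm_num)
  have hcpos : 0 < c := by omega
  set J := j + e with hJ
  have hk : 3 ^ J = 3 ^ e * c := by rw [hJ, hc, pow_add, mul_comm]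
  set N := 9 * (3 ^ J * R * c) with hN
  set s := 3 ^ J * R * c * D with hs
  have hs1 : 3 ^ J * R * c ≤ s := Nat.le_mul_of_pos_right _ hD
  have hs2 : c ≤ s := le_trans (Nat.le_mul_of_pos_left _ (by positivity)) hs1
  have hHpos : 0 < B * N := by positivity
  have : Nonempty (Fin R → Fin (2 * (B * N) ^ 3 ^ J)) := ⟨fun _ => ⟨0, by positivity⟩⟩
  have hA : (Fintype.card (Fin R → Fin (2 * (B * N) ^ 3 ^ J)) : ℝ) ≤ (1.05 : ℝ) ^ s := by
    simp only [Fintype.card_fun, Fintype.card_fin]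
    push_cast
    have h1 : 2 * ((B : ℝ) * N) ≤ (1.05 : ℝ) ^ c := by
      refine le_trans (le_of_eq ?_) (hc₁ c (by omega))
      rw [hN, hk]; push_cast; ring
    have h2 : 2 * ((B : ℝ) * N) ^ 3 ^ J ≤ ((1.05 : ℝ) ^ c) ^ 3 ^ J := by
      refine le_trans ?_ (pow_le_pow_left₀ (by positivity) h1 _)
      rw [mul_pow 2]
      exact mul_le_mul_of_nonneg_right (le_self_pow₀ (by norm_num) (by positivity))
        (by positivity)
    refine (pow_le_pow_left₀ (by positivity) h2 R).trans ?_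
    rw [← pow_mul, ← pow_mul]
    exact pow_le_pow_right₀ (by norm_num) (le_trans (le_of_eq (by ring)) hs1)
  obtain ⟨lab, hl1, hl2, hl3⟩ := exists_labels' s hA
  have hlam : B * (9 * c) * R * 3 ^ J = B * N := by rw [hN]; ring
  have hn' : (1 : ℝ) ≤ Fintype.card ι := by exact_mod_cast hn
  refine ⟨Fin (20 * s) ⊕ (Fin N × ι), inferInstance, inferInstance,
    glue lab (fun u a => est (B * N) J R (B * (9 * c)) (copies N X u) a),
    20 * s + R * (3 ^ J * D), ?_, ?_, ?_, ?_, ?_⟩
  · simp only [Fintype.card_sum, Fintype.card_fin]; omega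
  · omega
  · simp only [Fintype.card_sum, Fintype.card_fin, Fintype.card_prod]
    push_cast
    have h1 : (s : ℝ) = c * (R * (3 ^ J * D)) := by rw [hs]; push_cast; ring
    have h2 : (N : ℝ) * D = 9 * s := by rw [hs, hN]; push_cast; ring
    have h3 : (c₃ : ℝ) ≤ c := by exact_mod_cast (show c₃ ≤ c by omega)
    have h4 : κ' ≤ c * (20 + 9 * κ - 20 * κ') := by nlinarith
    have h5 : (0 : ℝ) ≤ R * (3 ^ J * D) := by positivity
    have h6 := mul_le_mul_of_nonneg_right h4 h5
    have h7 := mul_le_mul_of_nonneg_left hκD (show (0 : ℝ) ≤ N by positivity)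
    have h8 : (N : ℝ) * (κ * D) = 9 * κ * s := by rw [mul_left_comm, h2]; ring
    have h9 : c * (20 + 9 * κ - 20 * κ') * (R * (3 ^ J * D)) = (20 + 9 * κ - 20 * κ') * s := by
      rw [h1]; ring
    linarith
  · refine glue_cost lab _ hl1 (d₂ := N * D) (fun a => ?_) ?_ fun ψ => ?_
    · exact (copies_cost hX N).map fun T => est (B * N) J R (B * (9 * c)) T a
    · have : N * D = 9 * s := by rw [hs, hN]; ring
      omega
    · exact est_deg hHpos J R _ (copies_abs hB N) (copies_deg hX N) ψ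
  · have hNpos : (0 : ℝ) < N := by positivity
    have hB' : (0 : ℝ) < B := by exact_mod_cast hBpos
    have hδ : 𝔼 u : Fin N × ι → Bool, 𝔼 a : Fin R → Fin (2 * (B * N) ^ 3 ^ J),
        ((est (B * N) J R (B * (9 * c)) (copies N X u) a : ℝ) - S u) ^ 2 ≤
        (3 * ε / 4) * (N * Fintype.card ι) := by
      have h1 : ∀ u : Fin N × ι → Bool, 𝔼 a : Fin R → Fin (2 * (B * N) ^ 3 ^ J),
          ((est (B * N) J R (B * (9 * c)) (copies N X u) a : ℝ) - S u) ^ 2 ≤
          16 * ((B * (9 * c) : ℕ) : ℝ) ^ 2 * R +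
            4 * (3 ^ J / ((B * N : ℕ) : ℝ)) ^ 2 * (copies N X u : ℝ) ^ 4 +
            2 * ((copies N X u : ℝ) - S u) ^ 2 := by
        intro u
        have h2 := est_mse hHpos J R _ hlam (copies_abs hB N u)
        have h3 : ∀ a : Fin R → Fin (2 * (B * N) ^ 3 ^ J),
            ((est (B * N) J R (B * (9 * c)) (copies N X u) a : ℝ) - S u) ^ 2 ≤
            2 * ((est (B * N) J R (B * (9 * c)) (copies N X u) a : ℝ) - copies N X u) ^ 2 +
              2 * ((copies N X u : ℝ) - S u) ^ 2 := by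
          intro a
          nlinarith [sq_nonneg (((est (B * N) J R (B * (9 * c)) (copies N X u) a : ℝ) -
            copies N X u) - ((copies N X u : ℝ) - S u))]
        refine (Finset.expect_le_expect fun a _ => h3 a).trans ?_
        rw [Finset.expect_add_distrib, Fintype.expect_const, ← Finset.mul_expect]
        linarith
      refine (Finset.expect_le_expect fun u _ => h1 u).trans ?_
      rw [Finset.expect_add_distrib, Finset.expect_add_distrib, Fintype.expect_const,
        ← Finset.mul_expect, ← Finset.mul_expect, copies_mse hX0]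
      have h4 := mul_le_mul_of_nonneg_left (copies_m4 hB hX0 N)
        (show (0 : ℝ) ≤ 4 * (3 ^ J / ((B * N : ℕ) : ℝ)) ^ 2 by positivity)
      have h5 : 4 * (3 ^ J / ((B * N : ℕ) : ℝ)) ^ 2 * (3 * N ^ 2 * B ^ 4) =
          12 * (3 ^ J) ^ 2 * B ^ 2 := by
        push_cast; field_simp; ring
      have hk' : (3 : ℝ) ^ J = 3 ^ e * c := by exact_mod_cast hk
      have hN' : (N : ℝ) = 9 * (3 ^ e * c * R * c) := by rw [hN, hk]; push_cast; ring
      have hc' : (0 : ℝ) < c := by exact_mod_cast hcpos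
      have h6 : 16 * ((B * (9 * c) : ℕ) : ℝ) ^ 2 * R ≤ ε / 4 * N := by
        rw [hN']; push_cast
        have := mul_le_mul_of_nonneg_right he.le (show (0 : ℝ) ≤ c ^ 2 * R by positivity)
        linarith
      have h7 : 12 * ((3 : ℝ) ^ J) ^ 2 * B ^ 2 ≤ ε / 4 * N := by
        rw [hN', hk']
        have := mul_le_mul_of_nonneg_right hR.le (show (0 : ℝ) ≤ 3 ^ e * c ^ 2 by positivity)
        have h8 : (0 : ℝ) ≤ ε * (3 ^ e * c ^ 2 * R) := by positivity
        linarith
      have h8 := mul_le_mul_of_nonneg_left hmse hNpos.le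
      have h9 : ε / 4 * N ≤ ε / 4 * (N * Fintype.card ι) :=
        mul_le_mul_of_nonneg_left (le_mul_of_one_le_right hNpos.le hn') (by positivity)
      linarith
    have h10 := glue_mse lab _ hl2 (hl3.trans (mul_le_mul_of_nonneg_right
      (hc₂ s (by omega)) (by positivity))) hδ
    refine h10.trans ?_
    simp only [Fintype.card_sum, Fintype.card_fin, Fintype.card_prod]
    push_cast
    have : (0 : ℝ) ≤ ε * (20 * s) := by positivity
    linarith

theorem good_final : Good 1.65 :=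
  (Good.step (κ' := 1.65) (Good.step (κ' := 1.449) good₀_one.good (by norm_num)).good
    (by norm_num)).good

end Crest.Agent.R63
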